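import Vale.Agent.P167.H327.Shift

/-!
# P167, general `q`, Stage II, route (C): elementary estimates in the disc
-/

set_option autoImplicit false

namespace Vale.Agent.P167.H199.C

open Set

/-- A boundary point of a shifted disc at the side of the shift is outside of the other disc. -/
theorem out_aux {w : ℂ} {s a b κ : ℝ} (hd : a ≠ b) (h1 : |a - b| ≤ 1) (hs : 0 ≤ (a - b) * Real.sin s)
    (hκ : κ ≤ (a - b) ^ 2 / 10) (hw : ‖w - (Complex.exp (s * Complex.I) + a * Complex.I)‖ < κ) :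
    1 + κ < ‖w - b * Complex.I‖ := by
  have hκ0 : 0 < κ := (norm_nonneg _).trans_lt hw
  have e1 : Complex.exp (s * Complex.I) + a * Complex.I - b * Complex.I =
      Complex.exp (s * Complex.I) + ((a - b : ℝ) : ℂ) * Complex.I := by
    push_cast
    ring
  have h2 : ‖Complex.exp (s * Complex.I) + ((a - b : ℝ) : ℂ) * Complex.I‖ ^ 2 =
      1 + 2 * ((a - b) * Real.sin s) + (a - b) ^ 2 := by
    rw [Complex.sq_norm, H327.normSq_exp_add]
  have h3 : ‖Complex.exp (s * Complex.I) + a * Complex.I - b * Complex.I‖ ≤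
      ‖w - b * Complex.I‖ + ‖w - (Complex.exp (s * Complex.I) + a * Complex.I)‖ := by
    have := norm_sub_le (w - b * Complex.I) (w - (Complex.exp (s * Complex.I) + a * Complex.I))
    have e2 : w - b * Complex.I - (w - (Complex.exp (s * Complex.I) + a * Complex.I)) =
        Complex.exp (s * Complex.I) + a * Complex.I - b * Complex.I := by ring
    rw [e2] at this
    exact this
  rw [e1] at h3
  have hD : 0 < (a - b) ^ 2 := by
    have := sub_ne_zero.2 hd
    positivity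
  have hD1 : (a - b) ^ 2 ≤ 1 := (sq_le_one_iff_abs_le_one _).2 h1
  set X := ‖Complex.exp (s * Complex.I) + ((a - b : ℝ) : ℂ) * Complex.I‖ with hX
  have hX0 : 0 ≤ X := norm_nonneg _
  by_contra hcon
  push Not at hcon
  have h4 : X < 1 + 2 * κ := by linarith
  have h5 : X ^ 2 < (1 + 2 * κ) ^ 2 := by
    exact pow_lt_pow_left₀ h4 hX0 (by norm_num)
  rw [h2] at h5
  nlinarith

/-- The lower half of the unit circle. -/
theorem lower_pt {x : ℝ} (h1 : -1 ≤ x) (h2 : x ≤ 1) : ∃ t ∈ Icc Real.pi (2 * Real.pi),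
    Real.cos t = x ∧ Real.sin t = -√(1 - x ^ 2) := by
  refine ⟨Real.arccos (-x) + Real.pi, ⟨?_, ?_⟩, ?_, ?_⟩
  · linarith [Real.arccos_nonneg (-x)]
  · linarith [Real.arccos_le_pi (-x)]
  · rw [Real.cos_add_pi, Real.cos_arccos (by linarith) (by linarith), neg_neg]
  · rw [Real.sin_add_pi, Real.sin_arccos, neg_sq]

theorem near_lower {w : ℂ} {r₁ r₂ r₀ κ : ℝ} (h0 : 0 < r₀) (h0' : r₀ ≤ 1 / 8) (h1 : |r₁| ≤ r₀)
    (h2 : |r₂| ≤ r₀) (h12 : r₁ < r₂) (hκ0 : 0 < κ) (hκ : κ ≤ (r₂ - r₁) * r₀ / 6)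
    (hw1 : ‖w - r₁ * Complex.I‖ < 1 + κ) (hw2 : 1 - 2 * κ < ‖w - r₂ * Complex.I‖) :
    ∃ t ∈ Icc Real.pi (2 * Real.pi), ‖w - Complex.exp (t * Complex.I)‖ ≤ 10 * r₀ := by
  obtain ⟨b1, b1'⟩ := abs_le.1 h1
  obtain ⟨b2, b2'⟩ := abs_le.1 h2
  have hκ1 : κ ≤ r₀ / 24 := by
    have : (r₂ - r₁) * r₀ / 6 ≤ (1 / 4) * r₀ / 6 := by gcongr; linarith
    linarith
  set x := w.re with hx
  set y := w.im with hy
  have n1 : ‖w - r₁ * Complex.I‖ ^ 2 = x ^ 2 + (y - r₁) ^ 2 := by
    rw [Complex.sq_norm, Complex.normSq_apply]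
    simp
    ring
  have n2 : ‖w - r₂ * Complex.I‖ ^ 2 = x ^ 2 + (y - r₂) ^ 2 := by
    rw [Complex.sq_norm, Complex.normSq_apply]
    simp
    ring
  have n3 : ‖w‖ ^ 2 = x ^ 2 + y ^ 2 := by
    rw [Complex.sq_norm, Complex.normSq_apply]
    ring
  have q1 : x ^ 2 + (y - r₁) ^ 2 < (1 + κ) ^ 2 := by
    rw [← n1]
    exact pow_lt_pow_left₀ hw1 (norm_nonneg _) (by norm_num)
  have q2 : (1 - 2 * κ) ^ 2 < x ^ 2 + (y - r₂) ^ 2 := by
    rw [← n2]
    exact pow_lt_pow_left₀ hw2 (by linarith) (by norm_num)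
  -- the height
  have hyr : y ≤ 2 * r₀ := by
    have h3 : (r₂ - r₁) * (2 * y - r₁ - r₂) ≤ 6 * κ := by nlinarith
    have h4 : (r₂ - r₁) * (2 * y - r₁ - r₂) ≤ (r₂ - r₁) * r₀ := by linarith
    have h5 := le_of_mul_le_mul_left h4 (by linarith)
    linarith
  -- the radius
  have hI : ‖((r₁ : ℝ) : ℂ) * Complex.I‖ = |r₁| := by simp
  have hI2 : ‖((r₂ : ℝ) : ℂ) * Complex.I‖ = |r₂| := by simp
  have m1 : ‖w‖ ≤ 1 + 2 * r₀ := by
    have h3 : ‖w‖ ≤ ‖w - r₁ * Complex.I‖ + ‖((r₁ : ℝ) : ℂ) * Complex.I‖ := by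
      have := norm_add_le (w - r₁ * Complex.I) (r₁ * Complex.I)
      rwa [sub_add_cancel] at this
    rw [hI] at h3
    linarith
  have m2 : 1 - 2 * r₀ ≤ ‖w‖ := by
    have h3 : ‖w - r₂ * Complex.I‖ ≤ ‖w‖ + ‖((r₂ : ℝ) : ℂ) * Complex.I‖ := norm_sub_le _ _
    rw [hI2] at h3
    linarith
  have hW0 : 0 < ‖w‖ := by linarith
  set R := ‖w‖ with hR
  have hxR : (x / R) ^ 2 + (y / R) ^ 2 = 1 := by
    rw [div_pow, div_pow, ← add_div, ← n3, div_self (by positivity)]
  have hx1 : (x / R) ^ 2 ≤ 1 := by nlinarith [sq_nonneg (y / R)]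
  obtain ⟨hxa, hxb⟩ := abs_le.1 ((sq_le_one_iff_abs_le_one _).1 hx1)
  obtain ⟨t, ht, hc, hs⟩ := lower_pt hxa hxb
  refine ⟨t, ht, ?_⟩
  have hse : √(1 - (x / R) ^ 2) = |y / R| := by
    have : 1 - (x / R) ^ 2 = (y / R) ^ 2 := by linarith
    rw [this, Real.sqrt_sq_eq_abs]
  rw [hse] at hs
  -- the distance
  have hre : (w - Complex.exp (t * Complex.I)).re = x - x / R := by
    rw [Complex.sub_re, Complex.exp_ofReal_mul_I_re, hc]
  have him : (w - Complex.exp (t * Complex.I)).im = y + |y / R| := by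
    rw [Complex.sub_im, Complex.exp_ofReal_mul_I_im, hs, sub_neg_eq_add]
  -- decompose
  have hdec : w - Complex.exp (t * Complex.I) =
      ((1 - 1 / R : ℝ) : ℂ) * w + ((y / R + |y / R| : ℝ) : ℂ) * Complex.I := by
    apply Complex.ext
    · rw [hre]
      simp only [Complex.add_re, Complex.re_ofReal_mul, Complex.I_re, mul_zero, add_zero]
      rw [← hx]
      field_simp
    · rw [him]
      simp only [Complex.add_im, Complex.im_ofReal_mul, Complex.I_im, mul_one]
      rw [← hy]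
      field_simp
      ring
  rw [hdec]
  refine (norm_add_le _ _).trans ?_
  have p1 : ‖((1 - 1 / R : ℝ) : ℂ) * w‖ ≤ 2 * r₀ := by
    rw [norm_mul, Complex.norm_real, Real.norm_eq_abs, ← hR]
    have : |1 - 1 / R| * R = |R - 1| := by
      rw [← abs_of_pos hW0, ← abs_mul, abs_of_pos hW0]
      congr 1
      field_simp
    rw [this, abs_le]
    constructor <;> linarith
  have p2 : ‖((y / R + |y / R| : ℝ) : ℂ) * Complex.I‖ ≤ 8 * r₀ := by
    rw [norm_mul, Complex.norm_I, mul_one, Complex.norm_real, Real.norm_eq_abs]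
    rcases le_total (y / R) 0 with h | h
    · rw [abs_of_nonpos h, add_neg_cancel, abs_zero]
      linarith
    · rw [abs_of_nonneg h, abs_of_nonneg (by linarith)]
      have h3 : y / R ≤ 4 * r₀ := by
        rw [div_le_iff₀ hW0]
        nlinarith
      linarith
  linarith

/-- The points of the lower half circle between two close points. -/
theorem between_aux {s l s' : ℝ} (hs : s ∈ Icc Real.pi (2 * Real.pi))
    (hs' : s' ∈ Icc Real.pi (2 * Real.pi)) (h : (s ≤ l ∧ l ≤ s') ∨ (s' ≤ l ∧ l ≤ s)) :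
    ‖Complex.exp (l * Complex.I) - Complex.exp (s * Complex.I)‖ ^ 2 ≤
      4 * ‖Complex.exp (s' * Complex.I) - Complex.exp (s * Complex.I)‖ := by
  have hmono : ∀ x y : ℝ, x ∈ Icc Real.pi (2 * Real.pi) → y ∈ Icc Real.pi (2 * Real.pi) → x ≤ y →
      Real.cos x ≤ Real.cos y := by
    intro x y hx hy hxy
    have := Real.cos_le_cos_of_nonneg_of_le_pi (x := 2 * Real.pi - y) (y := 2 * Real.pi - x)
      (by linarith [hy.2]) (by linarith [hx.1]) (by linarith)
    rwa [Real.cos_two_pi_sub, Real.cos_two_pi_sub] at this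
  have hl : l ∈ Icc Real.pi (2 * Real.pi) := by
    rcases h with ⟨h1, h2⟩ | ⟨h1, h2⟩
    · exact ⟨hs.1.trans h1, h2.trans hs'.2⟩
    · exact ⟨hs'.1.trans h1, h2.trans hs.2⟩
  have hsin : ∀ x ∈ Icc Real.pi (2 * Real.pi), Real.sin x ≤ 0 := by
    intro x hx
    have h5 : Real.sin x = -Real.sin (x - Real.pi) := by rw [Real.sin_sub_pi]; ring
    rw [h5, neg_nonpos]
    exact Real.sin_nonneg_of_nonneg_of_le_pi (by linarith [hx.1]) (by linarith [hx.2])
  have hcos : |Real.cos l - Real.cos s| ≤ |Real.cos s' - Real.cos s| := by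
    rcases h with ⟨h1, h2⟩ | ⟨h1, h2⟩
    · have a1 := hmono _ _ hs hl h1
      have a2 := hmono _ _ hl hs' h2
      rw [abs_of_nonneg (by linarith), abs_of_nonneg (by linarith)]
      linarith
    · have a1 := hmono _ _ hs' hl h1
      have a2 := hmono _ _ hl hs h2
      rw [abs_of_nonpos (by linarith), abs_of_nonpos (by linarith)]
      linarith
  set D := |Real.cos s' - Real.cos s| with hD
  have hDn : D ≤ ‖Complex.exp (s' * Complex.I) - Complex.exp (s * Complex.I)‖ := by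
    have h3 := Complex.abs_re_le_norm (Complex.exp (s' * Complex.I) - Complex.exp (s * Complex.I))
    rwa [Complex.sub_re, Complex.exp_ofReal_mul_I_re, Complex.exp_ofReal_mul_I_re] at h3
  have hD2 : D ≤ 2 := by
    rw [hD, abs_le]
    constructor <;> linarith [Real.cos_le_one s, Real.cos_le_one s', Real.neg_one_le_cos s,
      Real.neg_one_le_cos s']
  have hD0 : 0 ≤ D := abs_nonneg _
  have hc2 : (Real.cos l - Real.cos s) ^ 2 ≤ 2 * D := by
    have h3 : (Real.cos l - Real.cos s) ^ 2 ≤ D ^ 2 := by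
      rw [← sq_abs]
      exact pow_le_pow_left₀ (abs_nonneg _) hcos 2
    nlinarith
  have hs2 : (Real.sin l - Real.sin s) ^ 2 ≤ 2 * D := by
    have a1 := hsin l hl
    have a2 := hsin s hs
    have h3 : (Real.sin l - Real.sin s) ^ 2 ≤ |Real.sin l ^ 2 - Real.sin s ^ 2| := by
      rcases le_total (Real.sin l) (Real.sin s) with h | h
      · rw [abs_of_nonneg (by nlinarith)]
        nlinarith
      · rw [abs_of_nonpos (by nlinarith)]
        nlinarith
    have h4 : Real.sin l ^ 2 - Real.sin s ^ 2 =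
        -((Real.cos l - Real.cos s) * (Real.cos l + Real.cos s)) := by
      nlinarith [Real.sin_sq_add_cos_sq l, Real.sin_sq_add_cos_sq s]
    rw [h4, abs_neg, abs_mul] at h3
    have h5 : |Real.cos l + Real.cos s| ≤ 2 := by
      rw [abs_le]
      constructor <;> linarith [Real.cos_le_one s, Real.cos_le_one l, Real.neg_one_le_cos s,
        Real.neg_one_le_cos l]
    have h6 : |Real.cos l - Real.cos s| * |Real.cos l + Real.cos s| ≤ D * 2 :=
      mul_le_mul hcos h5 (abs_nonneg _) hD0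
    linarith
  have hn : ‖Complex.exp (l * Complex.I) - Complex.exp (s * Complex.I)‖ ^ 2 =
      (Real.cos l - Real.cos s) ^ 2 + (Real.sin l - Real.sin s) ^ 2 := by
    rw [Complex.sq_norm, Complex.normSq_apply, Complex.sub_re, Complex.sub_im,
      Complex.exp_ofReal_mul_I_re, Complex.exp_ofReal_mul_I_re, Complex.exp_ofReal_mul_I_im,
      Complex.exp_ofReal_mul_I_im]
    ring
  rw [hn]
  linarith

end Vale.Agent.P167.H199.C
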