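import Vale.Agent.P167.QE.On
import Vale.Agent.P167.H718.Rc2

/-!
# P167, general `q`, Stage II, route (C): the statements (C1), (C2), (C3)

`Φ` a marked domain (homeomorphism of the plane), `co Φ z` the coordinates of the point `z` (the
domain is `rad (co Φ z) < 1`; free arc: upper half circle, wired arc: lower half circle).
Events: the interface visits `B` (attached to the free arc) before `A` (attached to the wired arc).
-/

set_option autoImplicit false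

open MeasureTheory Filter Topology Set

namespace Vale.Agent.P167.H199.C

open Vale.Agent.P167.FK
open Vale.Agent.P145.FB (PStep)
open Vale.Agent.P167.E6
open Vale.Agent.P153.R2.Final (dom circ toC IsUniformizer)
open Vale.Agent.P167.QE (Cls CurveLimitOn wq)

/-! ### Marked domains -/

/-- The radius. -/
noncomputable def rad (w : ℝ × ℝ) : ℝ := √(w.1 ^ 2 + w.2 ^ 2)

/-- The coordinates of the point `z` with respect to `Φ`. -/
noncomputable def co (Φ : (ℝ × ℝ) ≃ₜ (ℝ × ℝ)) (z : ℂ) : ℝ × ℝ := Φ.symm (z.re, z.im)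

/-- The marked domain whose disc is shifted by `(0, r)` : for `r < r'` the free arc of `shift Φ r'` is
outside of the closure of the domain of `shift Φ r`, and the wired arc of `shift Φ r` is outside of
the closure of the domain of `shift Φ r'`. -/
noncomputable def shift (Φ : (ℝ × ℝ) ≃ₜ (ℝ × ℝ)) (r : ℝ) : (ℝ × ℝ) ≃ₜ (ℝ × ℝ) :=
  (Homeomorph.addRight ((0, r) : ℝ × ℝ)).trans Φ

/-- The counterclockwise lattice polygon `p` (free vertices `p 0, …, p (k - 1)`) of mesh `δ < ε` is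
`ε`-close to the boundary of the marked domain `Φ` (the clause of `Approx`). -/
def Close (Φ : (ℝ × ℝ) ≃ₜ (ℝ × ℝ)) (ε δ : ℝ) {N : ℕ} (k : ℕ) (p : ZMod N → ℤ × ℤ)
    (S : Finset (ℤ × ℤ)) : Prop :=
  (0 < δ ∧ 0 < k ∧ k < N ∧ IsPolygon p ∧ Encloses p S) ∧ δ < ε ∧
  ∃ s : ℕ → ℝ, Monotone s ∧ s 0 = 0 ∧ s k = Real.pi ∧ s N = 2 * Real.pi ∧
    ∀ i < N, ∀ t ∈ Icc (s i) (s (i + 1)), dist ((δ : ℂ) * pt (p i)) (toC (Φ (circ t))) < ε

/-! ### Admissible pairs of sets -/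

/-- The closed free arc. -/
def fArc (Φ : (ℝ × ℝ) ≃ₜ (ℝ × ℝ)) : Set ℂ := (fun t => toC (Φ (circ t))) '' Icc 0 Real.pi

/-- The closed wired arc. -/
def wArc (Φ : (ℝ × ℝ) ≃ₜ (ℝ × ℝ)) : Set ℂ :=
  (fun t => toC (Φ (circ t))) '' Icc Real.pi (2 * Real.pi)

/-- `A`, `B` are disjoint continua, `A` crosses the wired arc and is disjoint from the closed free arc,
`B` crosses the free arc and is disjoint from the closed wired arc. -/
structure Adm (Φ : (ℝ × ℝ) ≃ₜ (ℝ × ℝ)) (A B : Set ℂ) : Prop where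
  cA : IsCompact A
  cB : IsCompact B
  kA : IsPreconnected A
  kB : IsPreconnected B
  disj : Disjoint A B
  freeA : Disjoint A (fArc Φ)
  wirB : Disjoint B (wArc Φ)
  meetA : (interior A ∩ wArc Φ).Nonempty
  meetB : (interior B ∩ fArc Φ).Nonempty

/-- Margins: `(A', B')` has a smaller obstacle and a larger target than `(A, B)`. -/
def Mar (A B A' B' : Set ℂ) : Prop := A' ⊆ interior A ∧ B ⊆ interior B'

/-! ### The events -/

/-- The position of the (even or odd) site `s` of the squares lattice in mesh `δ`: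
`pos δ (ro v) = δ v`. -/
noncomputable def pos (δ : ℝ) (s : ℤ × ℤ) : ℂ :=
  (δ : ℂ) * ⟨((s.1 + s.2 : ℤ) : ℝ) / 2, ((s.2 - s.1 : ℤ) : ℝ) / 2⟩

/-- **The event `Hit`**: there is a path of open squares (the squares of the wired arc are open) from
the even site `s₀` to a site in `B` whose sites are not in `A`. (Increasing.) -/
def Hit (δ : ℝ) (A B : Set ℂ) (s₀ : ℤ × ℤ) : Set Cfg :=
  {ω | pos δ s₀ ∉ A ∧ ∃ u, pos δ u ∈ B ∧
    Relation.ReflTransGen (fun s t => PStep (op ω) s t ∧ pos δ t ∉ A) s₀ u}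

/-- The curve visits the interior of `B` and does not meet `A` before (open, invariant under
reparametrization). -/
def Vis (A B : Set ℂ) : Set C(unitInterval, ℂ) :=
  {x | ∃ t, x t ∈ interior B ∧ ∀ s ≤ t, x s ∉ A}

/-- The curve visits `B` and does not meet the interior of `A` before (closed, invariant under
reparametrization). -/
def VisC (A B : Set ℂ) : Set C(unitInterval, ℂ) :=
  {x | ∃ t, x t ∈ B ∧ ∀ s < t, x s ∉ interior A}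

/-- The probability of the intersection of the events `Hit`. -/
noncomputable def PH (q δ : ℝ) {N : ℕ} (p : ZMod N → ℤ × ℤ) (k : ℕ) (S : Finset (ℤ × ℤ)) {m : ℕ}
    (A B : Fin m → Set ℂ) : ℝ :=
  Final.mean q p k S fun X =>
    (⋂ j, Hit δ (A j) (B j) (H192.ro (p (-1)))).indicator 1 (H192.cfg (wiredOpen p k X))

/-- The probability that the interface is in `V`. -/
noncomputable def PV (q : ℝ) {N : ℕ} (p : ZMod N → ℤ × ℤ) (k : ℕ) (S : Finset (ℤ × ℤ))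
    (c : Finset (Sym2 (ℤ × ℤ)) → C(unitInterval, ℂ)) (V : Set C(unitInterval, ℂ)) : ℝ :=
  Final.mean q p k S fun X => V.indicator 1 (c X)

/-! ### (C1), (C2) -/

/-- **(C1)** (lattice, law-free). -/
def S_C1 : Prop := ∀ (Φ : (ℝ × ℝ) ≃ₜ (ℝ × ℝ)) (A B A' B' : Set ℂ), Adm Φ A B →
  Adm Φ A' B' → Mar A B A' B' → ∃ r₀ > 0, ∀ r : ℝ, |r| ≤ r₀ → ∃ ε > 0,
    ∀ (δ : ℝ) (N k : ℕ) (p : ZMod N → ℤ × ℤ) (S : Finset (ℤ × ℤ)), Close (shift Φ r) ε δ k p S →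
      ∀ X ⊆ edges S, ∀ c : C(unitInterval, ℂ), IsInterface p k δ X c →
        (c ∈ Vis A B → H192.cfg (wiredOpen p k X) ∈ Hit δ A' B' (H192.ro (p (-1)))) ∧
        (H192.cfg (wiredOpen p k X) ∈ Hit δ A B (H192.ro (p (-1))) → c ∈ VisC A' B')

/-- **(C2)** (law level): the polygon `p₁` is more closed than the polygon `p₂`. -/
def S_C2 (q : ℝ) : Prop := ∀ (Φ : (ℝ × ℝ) ≃ₜ (ℝ × ℝ)) (m : ℕ)
  (A B A' B' : Fin m → Set ℂ), (∀ j, Adm Φ (A j) (B j)) → (∀ j, Adm Φ (A' j) (B' j)) →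
  (∀ j, Mar (A j) (B j) (A' j) (B' j)) → ∃ r₀ > 0, ∀ r₁ r₂ : ℝ, |r₁| ≤ r₀ → |r₂| ≤ r₀ → r₁ < r₂ →
    ∃ ε > 0, ∀ (δ : ℝ) (N₁ k₁ N₂ k₂ : ℕ) (p₁ : ZMod N₁ → ℤ × ℤ) (p₂ : ZMod N₂ → ℤ × ℤ)
      (S₁ S₂ : Finset (ℤ × ℤ)), Close (shift Φ r₁) ε δ k₁ p₁ S₁ →
        Close (shift Φ r₂) ε δ k₂ p₂ S₂ → PH q δ p₁ k₁ S₁ A B ≤ PH q δ p₂ k₂ S₂ A' B'

/-! ### The inputs of (C3) -/

/-- The marked domain has an approximation by (counterclockwise) lattice polygons, that is, `Φ`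
preserves the orientation. -/
def HasApx (Φ : (ℝ × ℝ) ≃ₜ (ℝ × ℝ)) : Prop :=
  ∃ (δ : ℕ → ℝ) (N k : ℕ → ℕ) (p : ∀ n, ZMod (N n) → ℤ × ℤ) (S : ℕ → Finset (ℤ × ℤ)),
    Approx Φ δ N k p S

/-- [SHA] the orientation is preserved by small shifts. -/
def S_sha : Prop := ∀ Φ : (ℝ × ℝ) ≃ₜ (ℝ × ℝ), HasApx Φ → ∀ r : ℝ, |r| < 1 → HasApx (shift Φ r)

/-- [POLY] for the class `K` of Stage I: every marked domain (with the right orientation) is
approximated by marked domains which have approximations in `K` for all sequences of meshes. -/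
def S_poly (K : Cls) : Prop := ∀ (Φ : (ℝ × ℝ) ≃ₜ (ℝ × ℝ)), HasApx Φ → ∀ ε > 0,
  ∃ Φ' : (ℝ × ℝ) ≃ₜ (ℝ × ℝ), (∀ t, dist (toC (Φ' (circ t))) (toC (Φ (circ t))) < ε) ∧
    ∀ δ : ℕ → ℝ, (∀ n, 0 < δ n) → Tendsto δ atTop (𝓝 0) →
      ∃ (N k : ℕ → ℕ) (p : ∀ n, ZMod (N n) → ℤ × ℤ) (S : ℕ → Finset (ℤ × ℤ)),
        Approx Φ' δ N k p S ∧ K Φ' δ N k p S

/-- [POLY-SEQ] stability of the uniformizers (Rado). -/
def S_stab : Prop := ∀ (Φ : (ℝ × ℝ) ≃ₜ (ℝ × ℝ)) (ψ : ℂ → ℂ), IsUniformizer Φ ψ →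
  ∀ Φn : ℕ → (ℝ × ℝ) ≃ₜ (ℝ × ℝ),
    (∀ ε > 0, ∀ᶠ n in atTop, ∀ t, dist (toC (Φn n (circ t))) (toC (Φ (circ t))) < ε) →
    ∃ ψn : ℕ → ℂ → ℂ, (∀ n, IsUniformizer (Φn n) (ψn n)) ∧
      TendstoUniformlyOn ψn ψ atTop {z | 0 ≤ z.im}

/-! ### (C3) -/

/-- `G` is the curve `ψ ∘ γ` of `(dom Φ; a, b)`, parametrised by `[0,1]`. -/
def IsG (Φ : (ℝ × ℝ) ≃ₜ (ℝ × ℝ)) (ψ : ℂ → ℂ) {Ω : Type} [MeasurableSpace Ω] (P : Measure Ω)
    (γ : Ω → ℝ → ℂ) (G : Ω → C(unitInterval, ℂ)) : Prop :=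
  (∀ᵐ ω ∂P, G ω 1 = toC (Φ (circ Real.pi)) ∧
    ∀ t : unitInterval, (t : ℝ) < 1 → G ω t = ψ (γ ω (t / (1 - t)))) ∧
  ∀ F : C(unitInterval, ℂ) → ℝ, Continuous F → AEMeasurable (fun ω => F (G ω)) P

/-- The interfaces converge to `G` along the approximation (the clause of `CurveLimitOn`). -/
def ConvTo (wt : QE.Wt) {Ω : Type} [MeasurableSpace Ω] (P : Measure Ω)
    (G : Ω → C(unitInterval, ℂ)) (δ : ℕ → ℝ) (N k : ℕ → ℕ) (p : ∀ n, ZMod (N n) → ℤ × ℤ)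
    (S : ℕ → Finset (ℤ × ℤ)) : Prop :=
  ∀ c : ∀ n, Finset (Sym2 (ℤ × ℤ)) → C(unitInterval, ℂ),
    (∀ n, ∀ A ⊆ edges (S n), IsInterface (p n) (k n) (δ n) A (c n A)) →
    ∀ F : C(unitInterval, ℂ) → ℝ, Continuous F → (∃ M, ∀ x, |F x| ≤ M) →
      (∀ (x : C(unitInterval, ℂ)) (σ : C(unitInterval, unitInterval)), StrictMono σ →
        Function.Surjective σ → F (x.comp σ) = F x) →
      Tendsto (fun n => QE.meanW (S n) (wt _ (p n) (k n) (S n)) fun A => F (c n A)) atTop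
        (𝓝 (∫ ω, F (G ω) ∂P))

/-- The content of `CurveLimitOn K κ wt` for the trace `γ`. -/
def CL (K : Cls) (κ : ℝ) (wt : QE.Wt) {Ω : Type} [MeasurableSpace Ω] (P : Measure Ω)
    (γ : Ω → ℝ → ℂ) : Prop :=
  Vale.Agent.P164.IsSLE κ P γ ∧ ∀ Φ : (ℝ × ℝ) ≃ₜ (ℝ × ℝ), (∃ ψ, IsUniformizer Φ ψ) ∧
    ∀ ψ, IsUniformizer Φ ψ → ∃ G : Ω → C(unitInterval, ℂ), IsG Φ ψ P γ G ∧
      ∀ (δ : ℕ → ℝ) (N k : ℕ → ℕ) (p : ∀ n, ZMod (N n) → ℤ × ℤ) (S : ℕ → Finset (ℤ × ℤ)),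
        Approx Φ δ N k p S →
        (∀ n, ∀ A ⊆ edges (S n), ∃ c, IsInterface (p n) (k n) (δ n) A c) ∧
        (K Φ δ N k p S → ConvTo wt P G δ N k p S)

theorem curveLimitOn_iff {K : Cls} {κ : ℝ} {wt : QE.Wt} : CurveLimitOn K κ wt ↔
    ∃ (Ω : Type) (_ : MeasurableSpace Ω) (P : Measure Ω) (_ : IsProbabilityMeasure P)
      (γ : Ω → ℝ → ℂ), CL K κ wt P γ := by
  unfold CurveLimitOn CL
  simp only [IsG, ConvTo, and_assoc]

/-- **The output of (C3)** for the trace `γ`: the probabilities of the events for the interfaces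
along any approximation of any marked domain and for the curve `ψ ∘ γ` are the same up to margins. -/
def S_C3 (q : ℝ) {Ω : Type} [MeasurableSpace Ω] (P : Measure Ω) (γ : Ω → ℝ → ℂ) : Prop :=
  ∀ (Φ : (ℝ × ℝ) ≃ₜ (ℝ × ℝ)) (ψ : ℂ → ℂ), IsUniformizer Φ ψ →
  ∀ G : Ω → C(unitInterval, ℂ), IsG Φ ψ P γ G →
  ∀ (δ : ℕ → ℝ) (N k : ℕ → ℕ) (p : ∀ n, ZMod (N n) → ℤ × ℤ) (S : ℕ → Finset (ℤ × ℤ)),
    Approx Φ δ N k p S →
  ∀ c : ∀ n, Finset (Sym2 (ℤ × ℤ)) → C(unitInterval, ℂ),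
    (∀ n, ∀ A ⊆ edges (S n), IsInterface (p n) (k n) (δ n) A (c n A)) →
  ∀ (m : ℕ) (A B : Fin 4 → Fin m → Set ℂ), (∀ i j, Adm Φ (A i j) (B i j)) →
    (∀ i : Fin 3, ∀ j, Mar (A i.castSucc j) (B i.castSucc j) (A i.succ j) (B i.succ j)) →
    ∀ e > 0, ∀ᶠ n in atTop,
      PV q (p n) (k n) (S n) (c n) (⋂ j, Vis (A 0 j) (B 0 j)) ≤
        P.real {ω | ∀ j, G ω ∈ VisC (A 3 j) (B 3 j)} + e ∧
      P.real {ω | ∀ j, G ω ∈ Vis (A 0 j) (B 0 j)} ≤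
        PV q (p n) (k n) (S n) (c n) (⋂ j, VisC (A 3 j) (B 3 j)) + e

/-- **(C3)**. -/
def C3_of (K : Cls) (q : ℝ) : Prop := S_C1 → S_C2 q → S_sha → S_poly K → S_stab →
  ∀ (Ω : Type) [MeasurableSpace Ω] (P : Measure Ω) [IsProbabilityMeasure P] (γ : Ω → ℝ → ℂ),
    CL K (Final.kappa q) (wq q) P γ → S_C3 q P γ

end Vale.Agent.P167.H199.C
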