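import Vale.Agent.P167.H199.C.CDefs
import Vale.Agent.P167.H437Q.C3a
import Vale.Agent.P167.H259.C.Defs

/-!
# P167, general `q`, Stage II, route (C): 259's `Cmp` from `S_C3`

* `Adm.interp` : between two admissible pairs with margins there is a third one;
* `cmp_of_C3` : the law of a subsequential limit of the interfaces and the law of `ψ ∘ γ` are
  comparable (`H259.C.Cmp`).
-/

set_option autoImplicit false

open MeasureTheory Filter Topology Set Metric

namespace Vale.Agent.P167.H199.C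

open Vale.Agent.P167.E6
open Vale.Agent.P153.R2.Final (dom circ toC IsUniformizer)
open Vale.Agent.P153.R2.C1 (reparam)
open Vale.Agent.P167.H437Q.C3 (Crv Tst Mb ti tst_ti ti_nonneg ti_le ti_one rad_pos lim_closed
  nm_closed)

/-! ### Interpolation -/

theorem isPreconnected_cthickening {A : Set ℂ} (hA : IsCompact A) (hk : IsPreconnected A) {η : ℝ}
    (hη : 0 ≤ η) : IsPreconnected (cthickening η A) := by
  rw [hA.cthickening_eq_biUnion_closedBall hη]
  refine isPreconnected_of_forall_pair fun x hx y hy => ?_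
  simp only [mem_iUnion, exists_prop] at hx hy
  obtain ⟨a, ha, hxa⟩ := hx
  obtain ⟨b, hb, hyb⟩ := hy
  have h1 : IsPreconnected (closedBall a η ∪ A) :=
    (convex_closedBall a η).isPreconnected.union a (mem_closedBall_self hη) ha hk
  have h2 : IsPreconnected (closedBall a η ∪ A ∪ closedBall b η) :=
    h1.union b (Or.inr hb) (mem_closedBall_self hη) (convex_closedBall b η).isPreconnected
  refine ⟨_, ?_, Or.inl (Or.inl hxa), Or.inr hyb, h2⟩
  rintro z ((hz | hz) | hz)
  · exact mem_biUnion ha hz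
  · exact mem_biUnion hz (mem_closedBall_self hη)
  · exact mem_biUnion hb hz

theorem subset_interior_cthickening {A : Set ℂ} {η : ℝ} (hη : 0 < η) :
    A ⊆ interior (cthickening η A) :=
  (self_subset_thickening hη A).trans (thickening_subset_interior_cthickening η A)

/-- **Interpolation of admissible pairs.** -/
theorem Adm.interp {Φ : (ℝ × ℝ) ≃ₜ (ℝ × ℝ)} {A B A' B' : Set ℂ} (h : Adm Φ A B) (h' : Adm Φ A' B')
    (hM : Mar A B A' B') : ∃ A₁ B₁, Adm Φ A₁ B₁ ∧ Mar A B A₁ B₁ ∧ Mar A₁ B₁ A' B' := by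
  obtain ⟨η₁, hη1, h1⟩ := h'.cA.exists_cthickening_subset_open isOpen_interior hM.1
  obtain ⟨η₂, hη2, h2⟩ := h.cB.exists_cthickening_subset_open isOpen_interior hM.2
  have hd : Disjoint A' B := h.disj.mono_left (hM.1.trans interior_subset)
  obtain ⟨η₃, hη3, h3⟩ := hd.exists_cthickenings h'.cA h.cB.isClosed
  set η := min η₁ (min η₂ η₃) with hη
  have hη0 : 0 < η := lt_min hη1 (lt_min hη2 hη3)
  have hA1 : cthickening η A' ⊆ interior A := (cthickening_mono (min_le_left _ _) _).trans h1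
  have hB1 : cthickening η B ⊆ interior B' :=
    (cthickening_mono ((min_le_right _ _).trans (min_le_left _ _)) _).trans h2
  refine ⟨cthickening η A', cthickening η B, ?_,
    ⟨hA1, subset_interior_cthickening hη0⟩, ⟨subset_interior_cthickening hη0, hB1⟩⟩
  exact
    { cA := h'.cA.cthickening
      cB := h.cB.cthickening
      kA := isPreconnected_cthickening h'.cA h'.kA hη0.le
      kB := isPreconnected_cthickening h.cB h.kB hη0.le
      disj := h3.mono (cthickening_mono ((min_le_right _ _).trans (min_le_right _ _)) _)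
        (cthickening_mono ((min_le_right _ _).trans (min_le_right _ _)) _)
      freeA := h.freeA.mono_left (hA1.trans interior_subset)
      wirB := h'.wirB.mono_left (hB1.trans interior_subset)
      meetA := h'.meetA.mono (inter_subset_inter_left _
        (interior_mono (self_subset_cthickening A')))
      meetB := h.meetB.mono (inter_subset_inter_left _
        (interior_mono (self_subset_cthickening B))) }

/-- Chains of length four. -/
theorem exists_chain {Φ : (ℝ × ℝ) ≃ₜ (ℝ × ℝ)} {A B A' B' : Set ℂ} (h : Adm Φ A B)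
    (h' : Adm Φ A' B') (hM : Mar A B A' B') : ∃ X Y : Fin 4 → Set ℂ, X 0 = A ∧ Y 0 = B ∧
      (∀ i, Adm Φ (X i) (Y i)) ∧
      (∀ i : Fin 3, Mar (X i.castSucc) (Y i.castSucc) (X i.succ) (Y i.succ)) ∧
      Mar (X 3) (Y 3) A' B' := by
  obtain ⟨A₁, B₁, a1, a2, a3⟩ := h.interp h' hM
  obtain ⟨A₂, B₂, b1, b2, b3⟩ := a1.interp h' a3
  obtain ⟨A₃, B₃, c1, c2, c3⟩ := b1.interp h' b3
  refine ⟨![A, A₁, A₂, A₃], ![B, B₁, B₂, B₃], rfl, rfl, fun i => ?_, fun i => ?_, c3⟩
  · fin_cases i
    · exact h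
    · exact a1
    · exact b1
    · exact c1
  · fin_cases i
    · exact a2
    · exact b2
    · exact c2

/-! ### The events -/

theorem vis_eq (A B : Set ℂ) : Vis A B = H259.C.Hit A (interior B) := rfl

theorem isClosed_visC {A B : Set ℂ} (hB : IsClosed B) : IsClosed (VisC A B) := by
  refine IsSeqClosed.isClosed fun x y hx hy => ?_
  choose t h1 h2 using hx
  obtain ⟨τ, -, θ, hθ, hτ⟩ := isCompact_univ.tendsto_subseq (fun n => mem_univ (t n))
  have hev : ∀ (u : unitInterval) , Tendsto (fun n => x n u) atTop (𝓝 (y u)) := fun u =>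
    ((continuous_eval_const u).tendsto y).comp hy
  have hyθ : Tendsto (fun n => x (θ n)) atTop (𝓝 y) := hy.comp hθ.tendsto_atTop
  refine ⟨τ, ?_, fun s hs hsA => ?_⟩
  · have h3 : Tendsto (fun n => x (θ n) (t (θ n))) atTop (𝓝 (y τ)) := by
      have h4 : Tendsto (fun n => (x (θ n), t (θ n))) atTop (𝓝 (y, τ)) :=
        hyθ.prodMk_nhds hτ
      exact (continuous_eval.tendsto (y, τ)).comp h4
    exact hB.mem_of_tendsto h3 (Eventually.of_forall fun n => h1 _)
  · have h3 : ∀ᶠ n in atTop, s < t (θ n) := hτ.eventually_const_lt hs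
    have h4 : ∀ᶠ n in atTop, x (θ n) s ∈ interior A :=
      ((hev s).comp hθ.tendsto_atTop).eventually (isOpen_interior.mem_nhds hsA)
    obtain ⟨n, h5, h6⟩ := (h3.and h4).exists
    exact h2 _ s h5 h6

theorem inv_visC (A B : Set ℂ) : H437Q.C3.Inv (VisC A B) := by
  intro x σ
  constructor
  · rintro ⟨t, h1, h2⟩
    refine ⟨σ t, h1, fun s hs h => ?_⟩
    have h3 : σ.symm s < t := by
      rw [← σ.lt_iff_lt, σ.apply_symm_apply]
      exact hs
    refine h2 _ h3 ?_
    show x (σ (σ.symm s)) ∈ interior A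
    rwa [σ.apply_symm_apply]
  · rintro ⟨t, h1, h2⟩
    refine ⟨σ.symm t, ?_, fun s hs h => ?_⟩
    · show x (σ (σ.symm t)) ∈ B
      rwa [σ.apply_symm_apply]
    · refine h2 (σ s) ?_ h
      rw [← σ.lt_iff_lt, σ.apply_symm_apply] at hs
      exact hs

theorem isOpen_vis {A B : Set ℂ} (hA : IsClosed A) : IsOpen (Vis A B) :=
  H259.C.isOpen_hit hA isOpen_interior

theorem inv_vis (A B : Set ℂ) : H437Q.C3.Inv (Vis A B) := fun x σ => H259.C.hit_reparam x σ

theorem visC_subset {A B A' B' : Set ℂ} (hd : Disjoint A' B) (hM : Mar A B A' B') :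
    VisC A B ⊆ Vis A' B' := by
  rintro x ⟨t, h1, h2⟩
  refine ⟨t, hM.2 h1, fun s hs h => ?_⟩
  rcases hs.lt_or_eq with h3 | h3
  · exact h2 s h3 (hM.1 h)
  · rw [h3] at h
    exact Set.disjoint_left.1 hd h h1

/-! ### The mean -/

section

variable {q : ℝ} {N k : ℕ} {p : ZMod N → ℤ × ℤ} {S : Finset (ℤ × ℤ)}

theorem mean_le {F G : Finset (Sym2 (ℤ × ℤ)) → ℝ} (hq : 0 < q) (h : ∀ A, F A ≤ G A) :
    Final.mean q p k S F ≤ Final.mean q p k S G := by
  have hw : ∀ A, 0 < Final.weight q p k S A := fun A => QE.wq_pos hq N p k S A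
  unfold Final.mean
  exact div_le_div_of_nonneg_right (Finset.sum_le_sum fun A _ =>
    mul_le_mul_of_nonneg_left (h A) (hw A).le) (Finset.sum_nonneg fun A _ => (hw A).le)

theorem mean_one_sub {F : Finset (Sym2 (ℤ × ℤ)) → ℝ} (hq : 0 < q) :
    Final.mean q p k S (fun A => 1 - F A) = 1 - Final.mean q p k S F := by
  have hw : ∀ A, 0 < Final.weight q p k S A := fun A => QE.wq_pos hq N p k S A
  have h0 : (0 : ℝ) < ∑ A ∈ (Final.edges S).powerset, Final.weight q p k S A :=
    Finset.sum_pos (fun A _ => hw A) ⟨∅, Finset.empty_mem_powerset _⟩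
  unfold Final.mean
  simp only [mul_sub, mul_one, Finset.sum_sub_distrib]
  rw [sub_div, div_self h0.ne']

end

theorem indicator_compl_eq (U : Set Crv) (x : Crv) :
    Uᶜ.indicator (1 : Crv → ℝ) x = 1 - U.indicator 1 x := by
  by_cases h : x ∈ U
  · rw [indicator_of_notMem (show x ∉ Uᶜ from fun h' => h' h), indicator_of_mem h]
    simp
  · rw [indicator_of_mem (show x ∈ Uᶜ from h), indicator_of_notMem h]
    simp

/-! ### The comparison -/

section

variable [MeasurableSpace C(unitInterval, ℂ)] [BorelSpace C(unitInterval, ℂ)]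
  {q : ℝ} {δ : ℕ → ℝ} {N k : ℕ → ℕ} {p : ∀ n, ZMod (N n) → ℤ × ℤ} {S : ℕ → Finset (ℤ × ℤ)}
  {c : ℕ → Finset (Sym2 (ℤ × ℤ)) → C(unitInterval, ℂ)} {m : Measure C(unitInterval, ℂ)}

/-- `m` is a limit of the laws of the interfaces on the test functions. -/
def LimAt (q : ℝ) (N k : ℕ → ℕ) (p : ∀ n, ZMod (N n) → ℤ × ℤ) (S : ℕ → Finset (ℤ × ℤ))
    (c : ∀ _ : ℕ, Finset (Sym2 (ℤ × ℤ)) → C(unitInterval, ℂ)) (m : Measure C(unitInterval, ℂ)) :
    Prop :=
  ∀ F, Tst F → Tendsto (fun n => Final.mean q (p n) (k n) (S n) fun X => F (c n X)) atTop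
    (𝓝 (∫ x, F x ∂m))

theorem mb_id : Mb m (fun x : Crv => x) := fun _ hF => hF.cont.measurable.aemeasurable

/-- Closed sets. -/
theorem limAt_closed [IsProbabilityMeasure m] (hq : 0 < q) (hm : LimAt q N k p S c m) {V : Set Crv} (hV : IsClosed V)
    (hVi : H437Q.C3.Inv V) {a : ℝ} (h : ∀ᶠ n in atTop, a ≤ PV q (p n) (k n) (S n) (c n) V) :
    a ≤ m.real V := by
  have h1 := lim_closed (P := m) mb_id hV hVi
  refine ge_of_tendsto' h1 fun j => ?_
  refine ge_of_tendsto (hm _ (tst_ti (rad_pos j) hVi)) ?_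
  filter_upwards [h] with n hn
  refine hn.trans (mean_le hq fun X => ?_)
  by_cases hX : c n X ∈ V
  · rw [indicator_of_mem hX, ti_one _ hX]
    exact le_refl (1 : ℝ)
  · rw [indicator_of_notMem hX]
    exact ti_nonneg _ _ _

/-- Open sets. -/
theorem limAt_open [IsProbabilityMeasure m] (hq : 0 < q) (hm : LimAt q N k p S c m) {U : Set Crv} (hU : IsOpen U)
    (hUi : H437Q.C3.Inv U) {a : ℝ} (h : ∀ᶠ n in atTop, PV q (p n) (k n) (S n) (c n) U ≤ a) :
    m.real U ≤ a := by
  have h1 : 1 - a ≤ m.real Uᶜ := by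
    refine limAt_closed hq hm hU.isClosed_compl hUi.compl ?_
    filter_upwards [h] with n hn
    have h2 : PV q (p n) (k n) (S n) (c n) Uᶜ = 1 - PV q (p n) (k n) (S n) (c n) U := by
      unfold PV
      rw [← mean_one_sub hq]
      congr 1
      funext X
      exact indicator_compl_eq U (c n X)
    rw [h2]
    linarith
  have h3 := probReal_compl_eq_one_sub (μ := m) hU.measurableSet
  linarith

end

section

variable [MeasurableSpace C(unitInterval, ℂ)] [BorelSpace C(unitInterval, ℂ)]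

/-- **259's comparison from `S_C3`.** -/
theorem cmp_of_C3 {q : ℝ} (hq : 0 < q) {Ω : Type} [MeasurableSpace Ω] {P : Measure Ω}
    [IsProbabilityMeasure P] {γ : Ω → ℝ → ℂ} (h3 : S_C3 q P γ) {Φ : (ℝ × ℝ) ≃ₜ (ℝ × ℝ)}
    {ψ : ℂ → ℂ} (hψ : IsUniformizer Φ ψ) {G : Ω → C(unitInterval, ℂ)} (hG : IsG Φ ψ P γ G)
    (hGm : AEMeasurable G P) {δ : ℕ → ℝ} {N k : ℕ → ℕ} {p : ∀ n, ZMod (N n) → ℤ × ℤ}
    {S : ℕ → Finset (ℤ × ℤ)} (hA : Approx Φ δ N k p S)
    {c : ∀ n, Finset (Sym2 (ℤ × ℤ)) → C(unitInterval, ℂ)}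
    (hc : ∀ n, ∀ A ⊆ edges (S n), IsInterface (p n) (k n) (δ n) A (c n A)) {θ : ℕ → ℕ}
    (hθ : StrictMono θ) {m : Measure C(unitInterval, ℂ)} [IsProbabilityMeasure m]
    (hm : ∀ F : C(unitInterval, ℂ) → ℝ, Continuous F → (∃ M, ∀ x, |F x| ≤ M) →
      (∀ (x : C(unitInterval, ℂ)) (σ : unitInterval ≃o unitInterval), F (reparam x σ) = F x) →
      Tendsto (fun n => Final.mean q (p (θ n)) (k (θ n)) (S (θ n)) fun X => F (c (θ n) X)) atTop
        (𝓝 (∫ x, F x ∂m))) : H259.C.Cmp (wArc Φ) (fArc Φ) m (P.map G) := by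
  have hL : LimAt q (fun n => N (θ n)) (fun n => k (θ n)) (fun n => p (θ n)) (fun n => S (θ n))
      (fun n => c (θ n)) m := fun F hF => hm F hF.cont hF.bdd hF.inv
  have hθ' := hθ.tendsto_atTop
  have conv : ∀ {A B : Set ℂ}, H259.C.Adm (wArc Φ) (fArc Φ) A B → Adm Φ A B := fun h =>
    ⟨h.compA, h.compB, h.connA, h.connB, h.disj, h.freeA, h.wirB, h.meetA, h.meetB⟩
  -- both inequalities for families indexed by `Fin j`
  have key : ∀ (j : ℕ) (A B A' B' : Fin j → Set ℂ), (∀ i, Adm Φ (A i) (B i)) →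
      (∀ i, Adm Φ (A' i) (B' i)) → (∀ i, Mar (A i) (B i) (A' i) (B' i)) →
      m (⋂ i, Vis (A i) (B i)) ≤ (P.map G) (⋂ i, Vis (A' i) (B' i)) ∧
      (P.map G) (⋂ i, Vis (A i) (B i)) ≤ m (⋂ i, Vis (A' i) (B' i)) := by
    intro j A B A' B' hAB hAB' hM
    choose X Y x0 y0 hXY hXM hX3 using fun i => exists_chain (hAB i) (hAB' i) (hM i)
    have hC := h3 Φ ψ hψ G hG δ N k p S hA c hc j (fun a i => X i a) (fun a i => Y i a)
      (fun a i => hXY i a) (fun a i => hXM i a)
    have hU : IsOpen (⋂ i, Vis (A i) (B i)) :=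
      isOpen_iInter_of_finite fun i => isOpen_vis (hAB i).cA.isClosed
    have hU' : IsOpen (⋂ i, Vis (A' i) (B' i)) :=
      isOpen_iInter_of_finite fun i => isOpen_vis (hAB' i).cA.isClosed
    have hUi : H437Q.C3.Inv (⋂ i, Vis (A i) (B i)) := H437Q.C3.Inv.iInter fun i => inv_vis _ _
    have hV : IsClosed (⋂ i, VisC (X i 3) (Y i 3)) :=
      isClosed_iInter fun i => isClosed_visC (hXY i 3).cB.isClosed
    have hVi : H437Q.C3.Inv (⋂ i, VisC (X i 3) (Y i 3)) := H437Q.C3.Inv.iInter fun i => inv_visC _ _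
    have e0 : (⋂ i, Vis (X i 0) (Y i 0)) = ⋂ i, Vis (A i) (B i) := by
      simp only [x0, y0]
    have hsub : (⋂ i, VisC (X i 3) (Y i 3)) ⊆ ⋂ i, Vis (A' i) (B' i) := by
      refine iInter_mono fun i => visC_subset ?_ (hX3 i)
      exact (hXY i 3).disj.mono_left ((hX3 i).1.trans interior_subset)
    have hPG : IsProbabilityMeasure (P.map G) := Measure.isProbabilityMeasure_map hGm
    have mapeq : ∀ W : Set Crv, MeasurableSet W → (P.map G).real W = P.real {ω | G ω ∈ W} := by
      intro W hW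
      unfold Measure.real
      rw [Measure.map_apply_of_aemeasurable hGm hW]
      rfl
    constructor
    · have h4 : m.real (⋂ i, Vis (A i) (B i)) ≤ (P.map G).real (⋂ i, VisC (X i 3) (Y i 3)) := by
        refine le_of_forall_pos_le_add fun e he => ?_
        refine limAt_open hq hL hU hUi ?_
        filter_upwards [hθ'.eventually (hC e he)] with n hn
        have h5 := hn.1
        rw [mapeq _ hV.measurableSet]
        have e1 : {ω | G ω ∈ ⋂ i, VisC (X i 3) (Y i 3)} = {ω | ∀ i, G ω ∈ VisC (X i 3) (Y i 3)} := by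
          ext ω
          simp only [mem_iInter, mem_ofPred_eq]
        rw [e1]
        refine le_trans (le_of_eq ?_) h5
        rw [← e0]
      refine le_trans ?_ (measure_mono hsub)
      exact (ENNReal.toReal_le_toReal (measure_ne_top _ _) (measure_ne_top _ _)).1 h4
    · have h4 : (P.map G).real (⋂ i, Vis (A i) (B i)) ≤ m.real (⋂ i, VisC (X i 3) (Y i 3)) := by
        refine le_of_forall_pos_le_add fun e he => ?_
        rw [← sub_le_iff_le_add]
        refine limAt_closed hq hL hV hVi ?_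
        filter_upwards [hθ'.eventually (hC e he)] with n hn
        have h5 := hn.2
        rw [mapeq _ hU.measurableSet, sub_le_iff_le_add]
        have e1 : {ω | G ω ∈ ⋂ i, Vis (A i) (B i)} = {ω | ∀ i, G ω ∈ Vis (X i 0) (Y i 0)} := by
          ext ω
          simp only [mem_iInter, mem_ofPred_eq, x0, y0]
        rw [e1]
        exact h5
      refine le_trans ?_ (measure_mono hsub)
      exact (ENNReal.toReal_le_toReal (measure_ne_top _ _) (measure_ne_top _ _)).1 h4
  -- finite families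
  have evs : ∀ (J : Type) (n : ℕ) (f : J ≃ Fin n) (A B : J → Set ℂ),
      H259.C.Evs A B = ⋂ i, Vis (A (f.symm i)) (B (f.symm i)) := by
    intro J n f A B
    ext x
    rw [mem_iInter]
    constructor
    · intro h i
      exact h (f.symm i)
    · intro h j
      have := h (f j)
      rwa [f.symm_apply_apply] at this
  refine ⟨fun J hJ A B A' B' h1 h2 h4 h5 => ?_, fun J hJ A B A' B' h1 h2 h4 h5 => ?_⟩
  · obtain ⟨n, ⟨f⟩⟩ := Finite.exists_equiv_fin J
    rw [evs J n f A B, evs J n f A' B']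
    exact (key n _ _ _ _ (fun i => conv (h1 _)) (fun i => conv (h2 _))
      fun i => ⟨h4 _, h5 _⟩).1
  · obtain ⟨n, ⟨f⟩⟩ := Finite.exists_equiv_fin J
    rw [evs J n f A B, evs J n f A' B']
    exact (key n _ _ _ _ (fun i => conv (h1 _)) (fun i => conv (h2 _))
      fun i => ⟨h4 _, h5 _⟩).2

end

end Vale.Agent.P167.H199.C
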