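import Vale.Agent.P167.H199.C.CDefs
import Vale.Agent.P167.H327.Shift

/-!
# P167, general `q`, Stage II, route (C): one lattice polygon close to a marked domain
-/

set_option autoImplicit false

open Filter Topology Set Metric

namespace Vale.Agent.P167.H199.C

open Vale.Agent.P167.E6
open Vale.Agent.P153.R2.R1
open Vale.Agent.P153.R2.Final (dom circ toC)

theorem approx_of_close {Φ : (ℝ × ℝ) ≃ₜ (ℝ × ℝ)} {δ : ℕ → ℝ} {N k : ℕ → ℕ}
    {p : ∀ n, ZMod (N n) → ℤ × ℤ} {S : ℕ → Finset (ℤ × ℤ)}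
    (h : ∀ n : ℕ, Close Φ (1 / ((n : ℝ) + 1)) (δ n) (k n) (p n) (S n)) : Approx Φ δ N k p S := by
  refine ⟨fun n => (h n).1, ?_, fun ε hε => ?_⟩
  · refine squeeze_zero (fun n => (h n).1.1.le) (fun n => (h n).2.1.le) ?_
    exact tendsto_one_div_add_atTop_nhds_zero_nat
  · filter_upwards [tendsto_one_div_add_atTop_nhds_zero_nat.eventually_lt_const hε] with n hn
    obtain ⟨s, h1, h2, h3, h4, h5⟩ := (h n).2.2
    exact ⟨s, h1, h2, h3, h4, fun i hi t ht => (h5 i hi t ht).trans hn⟩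

theorem close_of_approx {Φ : (ℝ × ℝ) ≃ₜ (ℝ × ℝ)} {δ : ℕ → ℝ} {N k : ℕ → ℕ}
    {p : ∀ n, ZMod (N n) → ℤ × ℤ} {S : ℕ → Finset (ℤ × ℤ)} (h : Approx Φ δ N k p S) {ε : ℝ}
    (hε : 0 < ε) : ∀ᶠ n in atTop, Close Φ ε (δ n) (k n) (p n) (S n) := by
  filter_upwards [h.2.1.eventually_lt_const hε, h.2.2 ε hε] with n h1 h2
  exact ⟨h.1 n, h1, h2⟩

/-- A property which holds eventually along all approximations holds for all polygons which are
sufficiently close. -/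
theorem exists_close {Φ : (ℝ × ℝ) ≃ₜ (ℝ × ℝ)}
    {P : ∀ (_ : ℝ) (N _ : ℕ) (_ : ZMod N → ℤ × ℤ) (_ : Finset (ℤ × ℤ)), Prop}
    (h : ∀ (δ : ℕ → ℝ) (N k : ℕ → ℕ) (p : ∀ n, ZMod (N n) → ℤ × ℤ) (S : ℕ → Finset (ℤ × ℤ)),
      Approx Φ δ N k p S → ∀ᶠ n in atTop, P (δ n) (N n) (k n) (p n) (S n)) :
    ∃ ε > 0, ∀ (δ : ℝ) (N k : ℕ) (p : ZMod N → ℤ × ℤ) (S : Finset (ℤ × ℤ)),
      Close Φ ε δ k p S → P δ N k p S := by
  by_contra hcon
  push Not at hcon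
  have h1 : ∀ n : ℕ, ∃ (δ : ℝ) (N k : ℕ) (p : ZMod N → ℤ × ℤ) (S : Finset (ℤ × ℤ)),
      Close Φ (1 / ((n : ℝ) + 1)) δ k p S ∧ ¬ P δ N k p S := fun n => hcon _ (by positivity)
  choose δ N k p S h2 h3 using h1
  obtain ⟨n, hn⟩ := (h δ N k p S (approx_of_close h2)).exists
  exact h3 n hn

theorem Close.mono {Φ : (ℝ × ℝ) ≃ₜ (ℝ × ℝ)} {ε ε' δ : ℝ} {N k : ℕ} {p : ZMod N → ℤ × ℤ}
    {S : Finset (ℤ × ℤ)} (h : Close Φ ε δ k p S) (hε : ε ≤ ε') : Close Φ ε' δ k p S := by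
  obtain ⟨h1, h2, s, h3, h4, h5, h6, h7⟩ := h
  exact ⟨h1, h2.trans_le hε, s, h3, h4, h5, h6, fun i hi t ht => (h7 i hi t ht).trans_le hε⟩

/-- Uniform continuity near a compact set. -/
theorem exists_uc {f : ℂ → ℂ} (hf : Continuous f) {K : Set ℂ} (hK : IsCompact K) {κ : ℝ}
    (hκ : 0 < κ) : ∃ ε > 0, ∀ z ∈ K, ∀ z', dist z z' < ε → dist (f z) (f z') < κ := by
  have h := hK.uniformContinuousAt_of_continuousAt f (fun a _ => hf.continuousAt)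
    (Metric.dist_mem_uniformity hκ)
  obtain ⟨ε, hε, h⟩ := Metric.mem_uniformity_dist.1 h
  exact ⟨ε, hε, fun z hz z' hd => h hd hz⟩

/-- The coordinates of the marked domain. -/
theorem shift_symm (Φ : (ℝ × ℝ) ≃ₜ (ℝ × ℝ)) (r : ℝ) (z : ℂ) :
    (homC (shift Φ r)).symm z = (homC Φ).symm z - r * Complex.I := by
  rw [Homeomorph.symm_apply_eq]
  have h := H327.homC_sh (Φ := Φ) (r := r) ((homC Φ).symm z - r * Complex.I)
  rw [sub_add_cancel, Homeomorph.apply_symm_apply] at h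
  exact h.symm

/-- The domain of the polygon in the coordinates of `Φ`. -/
theorem close_region (Φ : (ℝ × ℝ) ≃ₜ (ℝ × ℝ)) {κ : ℝ} (hκ : 0 < κ) : ∃ ε > 0,
    ∀ (δ : ℝ) (N k : ℕ) (p : ZMod N → ℤ × ℤ) (S : Finset (ℤ × ℤ)), Close Φ ε δ k p S →
      (∀ z ∈ region δ S, ‖(homC Φ).symm z‖ < 1 + κ) ∧
      (∀ z, ‖(homC Φ).symm z‖ ≤ 1 - κ → z ∈ region δ S) := by
  refine exists_close (P := fun δ N k p S => (∀ z ∈ region δ S, ‖(homC Φ).symm z‖ < 1 + κ) ∧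
    (∀ z, ‖(homC Φ).symm z‖ ≤ 1 - κ → z ∈ region δ S)) fun δ N k p S hA => ?_
  -- the outer neighbourhood
  have hO : IsOpen ((homC Φ).symm ⁻¹' ball (0 : ℂ) (1 + κ)) :=
    isOpen_ball.preimage (homC Φ).symm.continuous
  have hc : IsCompact (closure (DC Φ)) := (isBounded_DC Φ).isCompact_closure
  have hsub : closure (DC Φ) ⊆ (homC Φ).symm ⁻¹' ball (0 : ℂ) (1 + κ) := by
    rw [closure_DC]
    rintro _ ⟨w, hw, rfl⟩
    rw [mem_preimage, Homeomorph.symm_apply_apply, mem_ball_zero_iff]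
    rw [mem_closedBall_zero_iff] at hw
    linarith
  obtain ⟨c, hc0, hcs⟩ := hc.exists_thickening_subset_open hO hsub
  have hK : IsCompact (homC Φ '' closedBall (0 : ℂ) (1 - κ)) :=
    (isCompact_closedBall _ _).image (homC Φ).continuous
  have hKD : homC Φ '' closedBall (0 : ℂ) (1 - κ) ⊆ toC '' dom Φ := by
    have h1 : DC Φ = homC Φ '' ball (0 : ℂ) 1 := DC_eq Φ
    show _ ⊆ DC Φ
    rw [h1]
    exact image_mono (closedBall_subset_ball (by linarith))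
  filter_upwards [H327.region_near hA hc0, H174.exhausts_of_approx hA _ hKD hK] with n h1 h2
  refine ⟨fun z hz => ?_, fun z hz => h2 ⟨(homC Φ).symm z, mem_closedBall_zero_iff.2 hz,
    (homC Φ).apply_symm_apply z⟩⟩
  obtain ⟨w, hw, hd⟩ := h1 z hz
  exact mem_ball_zero_iff.1 (hcs (mem_thickening_iff.2 ⟨w, hw, hd⟩))

/-- The boundary vertices of the polygon in the coordinates of `Φ`. -/
theorem close_bd (Φ : (ℝ × ℝ) ≃ₜ (ℝ × ℝ)) {κ : ℝ} (hκ : 0 < κ) : ∃ ε > 0, ∀ (z : ℂ) (t : ℝ),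
    dist z (toC (Φ (circ t))) < ε →
      ‖(homC Φ).symm z - Complex.exp (t * Complex.I)‖ < κ := by
  have hc : IsCompact (range (FC Φ)) := by
    rw [← frontier_DC]
    exact (isBounded_DC Φ).isCompact_closure.of_isClosed_subset isClosed_frontier
      frontier_subset_closure
  obtain ⟨ε, hε, h⟩ := exists_uc (homC Φ).symm.continuous hc hκ
  refine ⟨ε, hε, fun z t hd => ?_⟩
  have h1 := h (FC Φ t) ⟨t, rfl⟩ z (by rw [dist_comm]; exact hd)
  rw [FC_eq, Homeomorph.symm_apply_apply, dist_comm, dist_eq_norm] at h1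
  exact h1

end Vale.Agent.P167.H199.C
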