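import Vale.Agent.P167.H199.C.Lat
import Vale.Agent.P167.H199.C.Near
import Vale.Agent.P167.H199.C.Ar

/-!
# P167, general `q`, Stage II, route (C), (C2): the geometry of two polygons close to the shifted domains
-/

set_option autoImplicit false

namespace Vale.Agent.P167.H199.C

open Set Vale.Agent.P167.FK
open Vale.Agent.P167.FKA (Cor)
open Vale.Agent.P167.H718 (Dq etaQ wE)
open Vale.Agent.P167.H72.SD (Bank Joined)
open Vale.Agent.P167.E6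
open Vale.Agent.P153.R2.R1
open Vale.Agent.P153.R2.Final (dom circ toC)

/-- What is known about a polygon which is close to `shift Φ r`, in the coordinates of `Φ`. -/
structure Pd (Φ : (ℝ × ℝ) ≃ₜ (ℝ × ℝ)) (r κ δ : ℝ) {N : ℕ} (k : ℕ) (p : ZMod N → ℤ × ℤ)
    (S : Finset (ℤ × ℤ)) (s : ℕ → ℝ) : Prop where
  hδ : 0 < δ
  hk : k < N
  poly : IsPolygon p
  enc : Encloses p S
  reg : ∀ z ∈ region δ S, ‖(homC Φ).symm z - r * Complex.I‖ < 1 + κ
  off : ∀ z, z ∉ region δ S → 1 - κ < ‖(homC Φ).symm z - r * Complex.I‖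
  mono : Monotone s
  s0 : s 0 = 0
  sk : s k = Real.pi
  sN : s N = 2 * Real.pi
  bd : ∀ i < N, ∀ t ∈ Icc (s i) (s (i + 1)),
    ‖(homC Φ).symm ((δ : ℂ) * pt (p i)) - (Complex.exp (t * Complex.I) + r * Complex.I)‖ < κ

variable {Φ : (ℝ × ℝ) ≃ₜ (ℝ × ℝ)} {r r₁ r₂ r₀ κ δ : ℝ} {N N₁ N₂ k k₁ k₂ : ℕ} {p : ZMod N → ℤ × ℤ}
  {p₁ : ZMod N₁ → ℤ × ℤ} {p₂ : ZMod N₂ → ℤ × ℤ} {S S₁ S₂ : Finset (ℤ × ℤ)} {s s₁ s₂ : ℕ → ℝ}

/-- Polygons which are close to `shift Φ r`. -/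
theorem exists_pd (Φ : (ℝ × ℝ) ≃ₜ (ℝ × ℝ)) (r : ℝ) {κ : ℝ} (hκ : 0 < κ) : ∃ ε > 0,
    ∀ (δ : ℝ) (N k : ℕ) (p : ZMod N → ℤ × ℤ) (S : Finset (ℤ × ℤ)), Close (shift Φ r) ε δ k p S →
      ∃ s, Pd Φ r κ δ k p S s := by
  obtain ⟨ε₁, h1, hreg⟩ := close_region (shift Φ r) hκ
  obtain ⟨ε₂, h2, hbd⟩ := close_bd (shift Φ r) hκ
  refine ⟨min ε₁ ε₂, lt_min h1 h2, fun δ N k p S hC => ?_⟩
  obtain ⟨g1, g2⟩ := hreg δ N k p S (hC.mono (min_le_left _ _))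
  obtain ⟨⟨a1, a2, a3, a4, a5⟩, a6, s, a7, a8, a9, a10, a11⟩ := hC
  refine ⟨s, a1, a3, a4, a5, fun z hz => ?_, fun z hz => ?_, a7, a8, a9, a10,
    fun i hi t ht => ?_⟩
  · have := g1 z hz
    rwa [shift_symm] at this
  · by_contra hcon
    push Not at hcon
    refine hz (g2 z ?_)
    rwa [shift_symm]
  · have h3 := hbd _ t ((a11 i hi t ht).trans_le (min_le_right _ _))
    rw [shift_symm] at h3
    have e : (homC Φ).symm ((δ : ℂ) * pt (p i)) - (Complex.exp (t * Complex.I) + r * Complex.I) =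
        (homC Φ).symm ((δ : ℂ) * pt (p i)) - r * Complex.I - Complex.exp (t * Complex.I) := by ring
    rwa [e]

theorem sin_lower {t : ℝ} (ht : t ∈ Icc Real.pi (2 * Real.pi)) : Real.sin t ≤ 0 := by
  have h5 : Real.sin t = -Real.sin (t - Real.pi) := by rw [Real.sin_sub_pi]; ring
  rw [h5, neg_nonpos]
  exact Real.sin_nonneg_of_nonneg_of_le_pi (by linarith [ht.1]) (by linarith [ht.2])

theorem Pd.s_wired (h : Pd Φ r κ δ k p S s) {i : ℕ} (hi : k ≤ i) (hi' : i ≤ N) :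
    s i ∈ Icc Real.pi (2 * Real.pi) :=
  ⟨by rw [← h.sk]; exact h.mono hi, by rw [← h.sN]; exact h.mono hi'⟩

theorem Pd.s_free (h : Pd Φ r κ δ k p S s) {i : ℕ} (hi : i < k) : s i ∈ Icc 0 Real.pi :=
  ⟨by rw [← h.s0]; exact h.mono (Nat.zero_le _), by rw [← h.sk]; exact h.mono hi.le⟩

theorem Pd.vert (h : Pd Φ r κ δ k p S s) {i : ℕ} (hi : i < N) :
    ‖(homC Φ).symm ((δ : ℂ) * pt (p i)) - (Complex.exp (s i * Complex.I) + r * Complex.I)‖ < κ :=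
  h.bd i hi (s i) ⟨le_rfl, h.mono (Nat.le_succ i)⟩

/-- The wired vertices of the polygon 1 are outside of the domain of the polygon 2. -/
theorem Pd.wired_off (h1 : Pd Φ r₁ κ δ k₁ p₁ S₁ s₁) (h2 : Pd Φ r₂ κ δ k₂ p₂ S₂ s₂) (hr : r₁ < r₂)
    (hr1 : r₂ - r₁ ≤ 1) (hκ : κ ≤ (r₂ - r₁) ^ 2 / 10) {l : ℕ} (hl : k₁ ≤ l) (hl' : l < N₁) :
    (δ : ℂ) * pt (p₁ l) ∉ region δ S₂ := by
  intro hz
  have h3 := h2.reg _ hz
  have h4 := out_aux (a := r₁) (b := r₂) (κ := κ) hr.ne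
    (by rw [abs_sub_comm, abs_of_nonneg (by linarith)]; exact hr1)
    (mul_nonneg_of_nonpos_of_nonpos (by linarith) (sin_lower (h1.s_wired hl hl'.le)))
    (by
      have : (r₁ - r₂) ^ 2 = (r₂ - r₁) ^ 2 := by ring
      rw [this]; exact hκ) (h1.vert hl')
  linarith

/-- The free vertices of the polygon 2 are outside of the domain of the polygon 1. -/
theorem Pd.free_off (h1 : Pd Φ r₁ κ δ k₁ p₁ S₁ s₁) (h2 : Pd Φ r₂ κ δ k₂ p₂ S₂ s₂) (hr : r₁ < r₂)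
    (hr1 : r₂ - r₁ ≤ 1) (hκ : κ ≤ (r₂ - r₁) ^ 2 / 10) {l : ℕ} (hl : l < k₂) :
    (δ : ℂ) * pt (p₂ l) ∉ region δ S₁ := by
  intro hz
  have h3 := h1.reg _ hz
  have hs := h2.s_free hl
  have h4 := out_aux (a := r₂) (b := r₁) (κ := κ) hr.ne'
    (by rw [abs_of_nonneg (by linarith)]; exact hr1)
    (mul_nonneg (by linarith) (Real.sin_nonneg_of_nonneg_of_le_pi hs.1 hs.2)) hκ
    (h2.vert (hl.trans h2.hk))
  linarith

/-- The wired vertices (as even sites). -/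
def Wv (p : ZMod N → ℤ × ℤ) (k : ℕ) : Set (ℤ × ℤ) :=
  {w | ∃ i : ℕ, k ≤ i ∧ i < N ∧ w = H192.ro (p i)}

theorem joined_Wv (hp : IsPolygon p) : Joined (Dq S p k) (etaQ p k) (Wv p k) := by
  have key : ∀ i j : ℕ, k ≤ i → i ≤ j → j < N →
      PC (cf (Dq S p k) (etaQ p k) ∅) (H192.ro (p i)) (H192.ro (p j)) := by
    intro i j hi hij hj
    exact Relation.ReflTransGen.mono (fun _ _ h => h.1) _ _
      (wired_seg (S := S) hp (A := ∅) hi hij hj fun _ _ _ => notMem_empty _)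
  rintro w ⟨i, h1, h2, rfl⟩ w' ⟨j, h3, h4, rfl⟩
  rcases le_total i j with h | h
  · exact key i j h1 h h4
  · exact FKA.rtg_symm (key j i h3 h h2)

/-- **The bank condition.** -/
theorem bank_Wv (h1 : Pd Φ r₁ κ δ k₁ p₁ S₁ s₁) (h2 : Pd Φ r₂ κ δ k₂ p₂ S₂ s₂) (hr : r₁ < r₂)
    (hr1 : r₂ - r₁ ≤ 1) (hκ : κ ≤ (r₂ - r₁) ^ 2 / 10) :
    Bank (Cc S₁ S₂ p₁ p₂ k₁ k₂) (Dq S₁ p₁ k₁) (etaQ p₁ k₁) (Wv p₂ k₂) := by
  intro w a v hw ha haw hv hv' hvw
  obtain ⟨-, ha2⟩ := Finset.mem_inter.1 ha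
  obtain ⟨ha3, -⟩ := H718.mem_Dq'.1 ha2
  obtain ⟨d, hd⟩ := corner_vertex haw hw
  obtain ⟨e, he⟩ := corner_vertex hvw hw
  rw [hd] at ha3
  have hreg := edge_region h1.hδ ha3
  rcases hv' with hv' | hv'
  · obtain ⟨hv1, hv2⟩ := H718.mem_Dq'.1 hv'
    have hv3 : v ∉ Dq S₂ p₂ k₂ := fun h => hv (Finset.mem_inter.2 ⟨hv', h⟩)
    rw [H718.mem_Dq', not_and_or, not_not] at hv3
    rw [he] at hv1 hv3
    rcases hv3 with hv3 | hv3
    · obtain ⟨i, hi, hpi⟩ := vertex_bd h2.poly.1 h2.enc ha3 hv3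
      have hki : k₂ ≤ i := by
        by_contra hlt
        push Not at hlt
        refine h1.free_off h2 hr hr1 hκ hlt ?_
        rw [hpi]
        exact edge_region h1.hδ hv1
      exact ⟨i, hki, hi, by rw [hpi, H192.ro_ro' hw]⟩
    · obtain ⟨l, hl1, hl2, hl3⟩ := edge_wE hv3
      exact ⟨l, hl1, hl2, by rw [hl3, H192.ro_ro' hw]⟩
  · exfalso
    unfold etaQ at hv'
    rw [H192.cfg_true] at hv'
    rw [he] at hv'
    obtain ⟨l, hl1, hl2, hl3⟩ := edge_wE (Finset.mem_coe.1 hv')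
    refine h1.wired_off h2 hr hr1 hκ hl1 hl2 ?_
    rw [hl3]
    exact hreg

theorem cast_last (hN : 0 < N) : ((N - 1 : ℕ) : ZMod N) = -1 := by
  have h : ((N - 1 : ℕ) : ZMod N) + 1 = 0 := by
    rw [← Nat.cast_succ, Nat.succ_eq_add_one, Nat.sub_add_cancel hN, ZMod.natCast_self]
  exact eq_neg_of_add_eq_zero_left h

/-- The start of the polygon 1 is not a site of the common part. -/
theorem start_off (h1 : Pd Φ r₁ κ δ k₁ p₁ S₁ s₁) (h2 : Pd Φ r₂ κ δ k₂ p₂ S₂ s₂) (hr : r₁ < r₂)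
    (hr1 : r₂ - r₁ ≤ 1) (hκ : κ ≤ (r₂ - r₁) ^ 2 / 10) :
    ∀ a ∈ Cc S₁ S₂ p₁ p₂ k₁ k₂, ¬ Cor a (H192.ro (p₁ (-1))) := by
  intro a ha hc
  obtain ⟨-, ha2⟩ := Finset.mem_inter.1 ha
  obtain ⟨ha3, -⟩ := H718.mem_Dq'.1 ha2
  obtain ⟨d, hd⟩ := corner_vertex hc (H192.even_ro _)
  rw [hd, H192.ro'_ro] at ha3
  have hk := h1.hk
  have hN : 0 < N₁ := by omega
  refine h1.wired_off h2 hr hr1 hκ (l := N₁ - 1) (by omega) (by omega) ?_
  rw [cast_last hN]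
  exact edge_region h1.hδ ha3

/-- **The position of the strip.** -/
theorem strip_near (h1 : Pd Φ r₁ κ δ k₁ p₁ S₁ s₁) (h2 : Pd Φ r₂ κ δ k₂ p₂ S₂ s₂) (h0 : 0 < r₀)
    (h0' : r₀ ≤ 1 / 8) (hb1 : |r₁| ≤ r₀) (hb2 : |r₂| ≤ r₀) (hr : r₁ < r₂) (hκ0 : 0 < κ)
    (hκ : κ ≤ (r₂ - r₁) * r₀ / 6)
    (hst : ∀ z z', ‖(homC Φ).symm z‖ ≤ 3 → dist z z' ≤ δ →
      ‖(homC Φ).symm z - (homC Φ).symm z'‖ < κ)
    {v : ℤ × ℤ} (hv : Sq (Cc S₁ S₂ p₁ p₂ k₁ k₂) (Dq S₁ p₁ k₁) (etaQ p₁ k₁) v) {u : ℤ × ℤ}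
    (hu : Even (u.1 + u.2)) (hc : Cor v u) : ∃ t ∈ Icc Real.pi (2 * Real.pi),
      ‖(homC Φ).symm (pos δ u) - Complex.exp (t * Complex.I)‖ ≤ 10 * r₀ := by
  obtain ⟨hvC, hv⟩ := hv
  obtain ⟨e, he⟩ := corner_vertex hc hu
  rw [pos_even δ hu]
  have hκ1 : κ ≤ r₀ := by
    obtain ⟨b1, b1'⟩ := abs_le.1 hb1
    obtain ⟨b2, b2'⟩ := abs_le.1 hb2
    have : (r₂ - r₁) * r₀ / 6 ≤ 1 * r₀ / 6 := by gcongr; linarith
    linarith
  -- a wired vertex
  have hW : ∀ {N k : ℕ} {p : ZMod N → ℤ × ℤ} {S : Finset (ℤ × ℤ)} {s : ℕ → ℝ} {r : ℝ},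
      Pd Φ r κ δ k p S s → |r| ≤ r₀ → ∀ l : ℕ, k ≤ l → l < N → p l = H192.ro' u →
      ∃ t ∈ Icc Real.pi (2 * Real.pi),
        ‖(homC Φ).symm ((δ : ℂ) * pt (H192.ro' u)) - Complex.exp (t * Complex.I)‖ ≤ 10 * r₀ := by
    intro N k p S s r h hr l hl hl' hpl
    refine ⟨s l, h.s_wired hl hl'.le, ?_⟩
    have h3 := h.vert hl'
    rw [hpl] at h3
    have h4 := norm_add_le ((homC Φ).symm ((δ : ℂ) * pt (H192.ro' u)) -
      (Complex.exp (s l * Complex.I) + r * Complex.I)) (r * Complex.I)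
    have e1 : (homC Φ).symm ((δ : ℂ) * pt (H192.ro' u)) -
      (Complex.exp (s l * Complex.I) + r * Complex.I) + r * Complex.I =
      (homC Φ).symm ((δ : ℂ) * pt (H192.ro' u)) - Complex.exp (s l * Complex.I) := by ring
    have e2 : ‖(r : ℂ) * Complex.I‖ = |r| := by simp
    rw [e1, e2] at h4
    linarith
  rcases hv with hv | hv
  · obtain ⟨hv1, -⟩ := H718.mem_Dq'.1 hv
    have hv3 : v ∉ Dq S₂ p₂ k₂ := fun h => hvC (Finset.mem_inter.2 ⟨hv, h⟩)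
    rw [H718.mem_Dq', not_and_or, not_not] at hv3
    rw [he] at hv1 hv3
    rcases hv3 with hv3 | hv3
    · have g1 := h1.reg _ (edge_region h1.hδ hv1)
      obtain ⟨y, hy1, hy2⟩ := edge_off h1.hδ hv3
      have g2 := h2.off y hy2
      have hn : ‖(homC Φ).symm ((δ : ℂ) * pt (H192.ro' u))‖ ≤ 3 := by
        have h4 := norm_add_le ((homC Φ).symm ((δ : ℂ) * pt (H192.ro' u)) - r₁ * Complex.I)
          (r₁ * Complex.I)
        have e2 : ‖(r₁ : ℂ) * Complex.I‖ = |r₁| := by simp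
        rw [sub_add_cancel, e2] at h4
        linarith
      have g3 := hst _ y hn (by rw [dist_comm]; exact hy1)
      refine near_lower h0 h0' hb1 hb2 hr hκ0 hκ g1 ?_
      have h5 := norm_sub_le ((homC Φ).symm ((δ : ℂ) * pt (H192.ro' u)) - r₂ * Complex.I)
        ((homC Φ).symm ((δ : ℂ) * pt (H192.ro' u)) - (homC Φ).symm y)
      have e3 : (homC Φ).symm ((δ : ℂ) * pt (H192.ro' u)) - r₂ * Complex.I -
        ((homC Φ).symm ((δ : ℂ) * pt (H192.ro' u)) - (homC Φ).symm y) =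
        (homC Φ).symm y - r₂ * Complex.I := by ring
      rw [e3] at h5
      linarith
    · obtain ⟨l, hl1, hl2, hl3⟩ := edge_wE hv3
      exact hW h2 hb2 l hl1 hl2 hl3
  · unfold etaQ at hv
    rw [H192.cfg_true, he] at hv
    obtain ⟨l, hl1, hl2, hl3⟩ := edge_wE (Finset.mem_coe.1 hv)
    exact hW h1 hb1 l hl1 hl2 hl3

/-- Every point of the wired arc is near a wired vertex. -/
theorem exists_index {s : ℕ → ℝ} {k N : ℕ} (hk : k < N) {t : ℝ} (h1 : s k ≤ t)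
    (h2 : t ≤ s N) : ∃ i, k ≤ i ∧ i < N ∧ t ∈ Icc (s i) (s (i + 1)) := by
  induction N, hk using Nat.le_induction with
  | base => exact ⟨k, le_rfl, Nat.lt_succ_self k, h1, h2⟩
  | succ N hN ih =>
    rcases le_total t (s N) with h | h
    · obtain ⟨i, a, b, c⟩ := ih h
      exact ⟨i, a, by omega, c⟩
    · exact ⟨N, by omega, by omega, h, h2⟩

theorem Pd.wired_near (h : Pd Φ r κ δ k p S s) {t : ℝ} (ht : t ∈ Icc Real.pi (2 * Real.pi)) :
    ∃ i : ℕ, k ≤ i ∧ i < N ∧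
      ‖(homC Φ).symm ((δ : ℂ) * pt (p i)) - Complex.exp (t * Complex.I)‖ ≤ κ + |r| := by
  obtain ⟨i, h1, h2, h3⟩ := exists_index (s := s) h.hk (t := t) (by rw [h.sk]; exact ht.1)
    (by rw [h.sN]; exact ht.2)
  refine ⟨i, h1, h2, ?_⟩
  have h4 := h.bd i h2 t h3
  have h5 := norm_add_le ((homC Φ).symm ((δ : ℂ) * pt (p i)) -
      (Complex.exp (t * Complex.I) + r * Complex.I)) (r * Complex.I)
  have e1 : (homC Φ).symm ((δ : ℂ) * pt (p i)) -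
      (Complex.exp (t * Complex.I) + r * Complex.I) + r * Complex.I =
      (homC Φ).symm ((δ : ℂ) * pt (p i)) - Complex.exp (t * Complex.I) := by ring
  have e2 : ‖(r : ℂ) * Complex.I‖ = |r| := by simp
  rw [e1, e2] at h5
  linarith

/-- The last vertex is near the mark. -/
theorem Pd.last_near (h : Pd Φ r κ δ k p S s) :
    ‖(homC Φ).symm ((δ : ℂ) * pt (p (-1))) - Complex.exp ((2 * Real.pi : ℝ) * Complex.I)‖ ≤
      κ + |r| := by
  have hk := h.hk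
  have h3 := h.bd (N - 1) (by omega) (2 * Real.pi) ⟨(h.s_wired (by omega) (by omega)).2, by
    rw [Nat.sub_add_cancel (by omega), h.sN]⟩
  rw [cast_last (by omega)] at h3
  have h5 := norm_add_le ((homC Φ).symm ((δ : ℂ) * pt (p (-1))) -
      (Complex.exp ((2 * Real.pi : ℝ) * Complex.I) + r * Complex.I)) (r * Complex.I)
  have e1 : (homC Φ).symm ((δ : ℂ) * pt (p (-1))) -
      (Complex.exp ((2 * Real.pi : ℝ) * Complex.I) + r * Complex.I) + r * Complex.I =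
      (homC Φ).symm ((δ : ℂ) * pt (p (-1))) - Complex.exp ((2 * Real.pi : ℝ) * Complex.I) := by
    ring
  have e2 : ‖(r : ℂ) * Complex.I‖ = |r| := by simp
  rw [e1, e2] at h5
  linarith

/-- The wired vertices between two close wired vertices. -/
theorem Pd.seg (h : Pd Φ r κ δ k p S s) {a : ℝ} (hκa : κ ≤ a) {i i' l : ℕ} (hi : k ≤ i)
    (hi' : i < N) (hj : k ≤ i') (hj' : i' < N)
    (hd : ‖(homC Φ).symm ((δ : ℂ) * pt (p i)) - (homC Φ).symm ((δ : ℂ) * pt (p i'))‖ ≤ a)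
    (hl : (i ≤ l ∧ l ≤ i') ∨ (i' ≤ l ∧ l ≤ i)) :
    ‖(homC Φ).symm ((δ : ℂ) * pt (p i)) - (homC Φ).symm ((δ : ℂ) * pt (p l))‖ ≤
      √(12 * a) + 2 * a := by
  have hlN : l < N := by omega
  have hkl : k ≤ l := by omega
  have v1 := h.vert hi'
  have v2 := h.vert hj'
  have v3 := h.vert hlN
  set X := (homC Φ).symm ((δ : ℂ) * pt (p i))
  set Y := (homC Φ).symm ((δ : ℂ) * pt (p i'))
  set Z := (homC Φ).symm ((δ : ℂ) * pt (p l))
  have hb := between_aux (h.s_wired hi hi'.le) (h.s_wired hj hj'.le) (l := s l) (by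
    rcases hl with ⟨h1, h2⟩ | ⟨h1, h2⟩
    · exact Or.inl ⟨h.mono h1, h.mono h2⟩
    · exact Or.inr ⟨h.mono h1, h.mono h2⟩)
  have h3 : ‖Complex.exp (s i' * Complex.I) - Complex.exp (s i * Complex.I)‖ ≤ 3 * a := by
    have e : Complex.exp (s i' * Complex.I) - Complex.exp (s i * Complex.I) =
        (X - (Complex.exp (s i * Complex.I) + r * Complex.I)) -
        ((X - Y) + (Y - (Complex.exp (s i' * Complex.I) + r * Complex.I))) := by ring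
    rw [e]
    refine (norm_sub_le _ _).trans ?_
    have := norm_add_le (X - Y) (Y - (Complex.exp (s i' * Complex.I) + r * Complex.I))
    linarith
  have h4 : ‖Complex.exp (s l * Complex.I) - Complex.exp (s i * Complex.I)‖ ≤ √(12 * a) := by
    refine Real.le_sqrt_of_sq_le (hb.trans ?_)
    linarith
  have e : X - Z = (X - (Complex.exp (s i * Complex.I) + r * Complex.I)) -
      ((Complex.exp (s l * Complex.I) - Complex.exp (s i * Complex.I)) +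
        (Z - (Complex.exp (s l * Complex.I) + r * Complex.I))) := by ring
  rw [e]
  refine (norm_sub_le _ _).trans ?_
  have := norm_add_le (Complex.exp (s l * Complex.I) - Complex.exp (s i * Complex.I))
    (Z - (Complex.exp (s l * Complex.I) + r * Complex.I))
  linarith

end Vale.Agent.P167.H199.C
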