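import Vale.Agent.P167.H199.C.Sand
import Vale.Agent.P167.H490.Exh

/-!
# P167, general `q`, Stage II, route (C): lattice lemmas
-/

set_option autoImplicit false

namespace Vale.Agent.P167.H199.C

open Vale.Agent.P167 Vale.Agent.P167.FK
open Vale.Agent.P167.FKA (Cor)
open Vale.Agent.P167.E6
open Vale.Agent.P167.H718 (wE mem_wE)

theorem pos_ro (δ : ℝ) (x : ℤ × ℤ) : pos δ (H192.ro x) = (δ : ℂ) * pt x := by
  unfold pos pt H192.ro
  congr 1
  apply Complex.ext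
  · show (((x.1 - x.2 + (x.1 + x.2) : ℤ) : ℝ)) / 2 = (x.1 : ℝ)
    push_cast
    ring
  · show (((x.1 + x.2 - (x.1 - x.2) : ℤ) : ℝ)) / 2 = (x.2 : ℝ)
    push_cast
    ring

theorem pos_even (δ : ℝ) {u : ℤ × ℤ} (hu : Even (u.1 + u.2)) :
    pos δ u = (δ : ℂ) * pt (H192.ro' u) := by
  rw [← pos_ro, H192.ro_ro' hu]

/-- An even corner of a square is an end of its edge. -/
theorem corner_vertex {v u : ℤ × ℤ} (h : Cor v u) (hu : Even (u.1 + u.2)) :
    ∃ r, H192.ed v = s(H192.ro' u, H192.ro' u + dir r) := by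
  obtain ⟨x, r, hx⟩ := H192.isEdge_ed v
  have hv : H192.sq s(x, x + dir r) = v := by rw [← hx, H192.sq_ed]
  have hc : u = H192.ro x ∨ u = H192.ro (x + dir r) := by
    have h3 : Cor (H72.SD.sqr (H192.ro x) (H192.ro (x + dir r))) u := by
      rw [H72.SD.ed_sqr_dir, hv]
      exact h
    obtain ⟨h4, h5⟩ := H192.ro_dir x r
    have he1 := Int.even_iff.1 (H192.even_ro x)
    have he2 := Int.even_iff.1 (H192.even_ro (x + dir r))
    have he3 := Int.even_iff.1 hu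
    obtain ⟨h6, h7⟩ := h3
    unfold H72.SD.sqr at h6 h7
    dsimp only at h6 h7
    rw [Prod.ext_iff, Prod.ext_iff]
    omega
  rcases hc with rfl | rfl
  · exact ⟨r, by rw [H192.ro'_ro, hx]⟩
  · refine ⟨r + 2, ?_⟩
    rw [H192.ro'_ro, E2.dir_add_two', hx, Sym2.eq_swap]

/-- The corners of the faces around a vertex. -/
theorem face_bd (x : ℤ × ℤ) (r : Fin 4) : ((face x r).1 = x.1 ∨ (face x r).1 = x.1 - 1) ∧
    ((face x r).2 = x.2 ∨ (face x r).2 = x.2 - 1) := by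
  fin_cases r <;> simp [face] <;> omega

theorem pt_mem_region {δ : ℝ} (hδ : 0 < δ) {S : Finset (ℤ × ℤ)} {x : ℤ × ℤ} {r : Fin 4}
    (h : face x r ∈ S) : (δ : ℂ) * pt x ∈ region δ S := by
  obtain ⟨h1, h2⟩ := face_bd x r
  refine ⟨_, h, ?_⟩
  have e1 : ((δ : ℂ) * pt x).re = δ * x.1 := by simp [pt]
  have e2 : ((δ : ℂ) * pt x).im = δ * x.2 := by simp [pt]
  rw [e1, e2]
  have a1 : ((face x r).1 : ℝ) ≤ x.1 ∧ (x.1 : ℝ) ≤ (face x r).1 + 1 :=
    ⟨by exact_mod_cast (show (face x r).1 ≤ x.1 by omega),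
      by exact_mod_cast (show x.1 ≤ (face x r).1 + 1 by omega)⟩
  have a2 : ((face x r).2 : ℝ) ≤ x.2 ∧ (x.2 : ℝ) ≤ (face x r).2 + 1 :=
    ⟨by exact_mod_cast (show (face x r).2 ≤ x.2 by omega),
      by exact_mod_cast (show x.2 ≤ (face x r).2 + 1 by omega)⟩
  exact ⟨mul_le_mul_of_nonneg_left a1.1 hδ.le, mul_le_mul_of_nonneg_left a1.2 hδ.le,
    mul_le_mul_of_nonneg_left a2.1 hδ.le, mul_le_mul_of_nonneg_left a2.2 hδ.le⟩

theorem edge_region {δ : ℝ} (hδ : 0 < δ) {S : Finset (ℤ × ℤ)} {x : ℤ × ℤ} {r : Fin 4}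
    (h : s(x, x + dir r) ∈ edges S) : (δ : ℂ) * pt x ∈ region δ S := by
  rcases (E2.mem_edges r).1 h with h1 | h1
  · exact pt_mem_region hδ h1
  · exact pt_mem_region hδ h1

/-- Near a vertex of an edge which is not in the domain there is a point outside of the domain. -/
theorem edge_off {δ : ℝ} (hδ : 0 < δ) {S : Finset (ℤ × ℤ)} {x : ℤ × ℤ} {r : Fin 4}
    (h : s(x, x + dir r) ∉ edges S) : ∃ y, dist y ((δ : ℂ) * pt x) ≤ δ ∧ y ∉ region δ S := by
  have hf : face x r ∉ S := fun h1 => h ((E2.mem_edges r).2 (Or.inl h1))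
  obtain ⟨h1, h2⟩ := face_bd x r
  refine ⟨(δ : ℂ) * ⟨(face x r).1 + 1 / 2, (face x r).2 + 1 / 2⟩, ?_, ?_⟩
  · rw [dist_eq_norm, ← mul_sub, norm_mul, Complex.norm_real, Real.norm_of_nonneg hδ.le]
    refine (mul_le_mul_of_nonneg_left ?_ hδ.le).trans_eq (mul_one δ)
    refine (Complex.norm_le_abs_re_add_abs_im _).trans ?_
    have b1 : |((face x r).1 : ℝ) + 1 / 2 - x.1| ≤ 1 / 2 := by
      rcases h1 with h | h
      · rw [h]
        have : (x.1 : ℝ) + 1 / 2 - x.1 = 1 / 2 := by ring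
        rw [this, abs_of_pos (by norm_num)]
      · rw [h]
        push_cast
        have : (x.1 : ℝ) - 1 + 1 / 2 - x.1 = -(1 / 2) := by ring
        rw [this, abs_neg, abs_of_pos (by norm_num)]
    have b2 : |((face x r).2 : ℝ) + 1 / 2 - x.2| ≤ 1 / 2 := by
      rcases h2 with h | h
      · rw [h]
        have : (x.2 : ℝ) + 1 / 2 - x.2 = 1 / 2 := by ring
        rw [this, abs_of_pos (by norm_num)]
      · rw [h]
        push_cast
        have : (x.2 : ℝ) - 1 + 1 / 2 - x.2 = -(1 / 2) := by ring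
        rw [this, abs_neg, abs_of_pos (by norm_num)]
    have e1 : ((⟨(face x r).1 + 1 / 2, (face x r).2 + 1 / 2⟩ : ℂ) - pt x).re =
        (face x r).1 + 1 / 2 - x.1 := by simp [pt]
    have e2 : ((⟨(face x r).1 + 1 / 2, (face x r).2 + 1 / 2⟩ : ℂ) - pt x).im =
        (face x r).2 + 1 / 2 - x.2 := by simp [pt]
    rw [e1, e2]
    linarith
  · rintro ⟨f, hfS, g1, g2, g3, g4⟩
    apply hf
    have e1 : ((δ : ℂ) * (⟨(face x r).1 + 1 / 2, (face x r).2 + 1 / 2⟩ : ℂ)).re =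
        δ * ((face x r).1 + 1 / 2) := by simp
    have e2 : ((δ : ℂ) * (⟨(face x r).1 + 1 / 2, (face x r).2 + 1 / 2⟩ : ℂ)).im =
        δ * ((face x r).2 + 1 / 2) := by simp
    rw [e1] at g1 g2
    rw [e2] at g3 g4
    have c1 := le_of_mul_le_mul_left g1 hδ
    have c2 := le_of_mul_le_mul_left g2 hδ
    have c3 := le_of_mul_le_mul_left g3 hδ
    have c4 := le_of_mul_le_mul_left g4 hδ
    have key : ∀ a b : ℤ, (a : ℝ) ≤ b + 1 / 2 → (b : ℝ) + 1 / 2 ≤ a + 1 → a = b := by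
      intro a b h1 h2
      have h3 : a < b + 1 := by
        have : (a : ℝ) < ((b + 1 : ℤ) : ℝ) := by push_cast; linarith
        exact_mod_cast this
      have h4 : b < a + 1 := by
        have : (b : ℝ) < ((a + 1 : ℤ) : ℝ) := by push_cast; linarith
        exact_mod_cast this
      omega
    have : f = face x r := Prod.ext (key _ _ c1 c2) (key _ _ c3 c4)
    rw [← this]
    exact hfS

/-- A vertex with an edge in the domain and an edge outside of the domain is a vertex of the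
polygon. -/
theorem vertex_bd {N : ℕ} {p : ZMod N → ℤ × ℤ} {S : Finset (ℤ × ℤ)} (hN : 2 < N)
    (hS : Encloses p S) {x : ℤ × ℤ} {r r' : Fin 4} (h : s(x, x + dir r) ∈ edges S)
    (h' : s(x, x + dir r') ∉ edges S) : ∃ i : ℕ, i < N ∧ p i = x := by
  have hf : face x r' ∉ S := fun h1 => h' ((E2.mem_edges r').2 (Or.inl h1))
  obtain ⟨a, ha⟩ : ∃ a, face x a ∈ S := by
    rcases (E2.mem_edges r).1 h with h1 | h1
    · exact ⟨_, h1⟩
    · exact ⟨_, h1⟩
  obtain ⟨t, h1, h2⟩ := H490.jump (fun r => face x r ∈ S) ha hf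
  obtain ⟨i, hi, -⟩ := (hS x t).2 ⟨h1, h2⟩
  have : NeZero N := ⟨by omega⟩
  refine ⟨i.val, ZMod.val_lt i, ?_⟩
  rw [ZMod.natCast_zmod_val]
  exact hi

/-- The ends of the edges of the wired arc. -/
theorem edge_wE {N k : ℕ} {p : ZMod N → ℤ × ℤ} {x : ℤ × ℤ} {r : Fin 4}
    (h : s(x, x + dir r) ∈ wE p k) : ∃ l : ℕ, k ≤ l ∧ l < N ∧ p l = x := by
  obtain ⟨i, h1, h2, h3⟩ := mem_wE.1 h
  rcases Sym2.eq_iff.1 h3 with ⟨h4, -⟩ | ⟨h4, -⟩
  · exact ⟨i, h1, by omega, h4.symm⟩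
  · refine ⟨i + 1, by omega, h2, ?_⟩
    push_cast
    exact h4.symm

end Vale.Agent.P167.H199.C
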