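import Vale.Agent.P167.H199.C.CDefs

/-!
# P167, general `q`, Stage II, route (C): the limit curve is a measurable random curve
-/

set_option autoImplicit false

open MeasureTheory Filter Topology Set

namespace Vale.Agent.P167.H199.C

/-- A random curve whose continuous functionals are measurable is measurable. -/
theorem aemeasurable_of_cont [MeasurableSpace C(unitInterval, ℂ)] [BorelSpace C(unitInterval, ℂ)]
    {Ω : Type} [MeasurableSpace Ω] {P : Measure Ω} {G : Ω → C(unitInterval, ℂ)}
    (h : ∀ F : C(unitInterval, ℂ) → ℝ, Continuous F → AEMeasurable (fun ω => F (G ω)) P) :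
    AEMeasurable G P := by
  set u := TopologicalSpace.denseSeq C(unitInterval, ℂ) with hu
  have hd : DenseRange u := TopologicalSpace.denseRange_denseSeq _
  set f : C(unitInterval, ℂ) → ℕ → ℝ := fun x n => dist x (u n) with hf
  have hfc : Continuous f := continuous_pi fun n => continuous_id.dist continuous_const
  have hfi : Function.Injective f := by
    intro x y hxy
    by_contra hne
    have hpos : 0 < dist x y := dist_pos.2 hne
    obtain ⟨n, hn⟩ := hd.exists_dist_lt x (half_pos hpos)
    have h1 : dist x (u n) = dist y (u n) := congrFun hxy n
    have h2 := dist_triangle_right x y (u n)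
    rw [← h1] at h2
    linarith
  have hme : MeasurableEmbedding f := hfc.measurableEmbedding hfi
  refine hme.aemeasurable_comp_iff.1 (aemeasurable_pi_iff.2 fun n => ?_)
  exact h (fun x => dist x (u n)) (continuous_id.dist continuous_const)

end Vale.Agent.P167.H199.C
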