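import Vale.Agent.P167.H199.C.Geo

/-!
# P167, general `q`, Stage II, route (C): **(C2) is a theorem**
-/

set_option autoImplicit false

namespace Vale.Agent.P167.H199.C

open Set Filter Topology Metric Vale.Agent.P167.FK
open Vale.Agent.P167.FKA (Cor)
open Vale.Agent.P167.H718 (Dq etaQ wE)
open Vale.Agent.P167.E6
open Vale.Agent.P153.R2.R1
open Vale.Agent.P153.R2.Final (dom circ toC)

variable {Φ : (ℝ × ℝ) ≃ₜ (ℝ × ℝ)}

/-- The margin of a pair of admissible pairs. -/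
theorem exists_margin {A B A' B' : Set ℂ} (h : Adm Φ A B) (h' : Adm Φ A' B') (hM : Mar A B A' B') :
    ∃ m > 0, (∀ z ∈ A', ∀ z', dist z z' < m → z' ∈ A) ∧
      (∀ z ∈ B, ∀ t ∈ Icc Real.pi (2 * Real.pi), m ≤ dist z (FC Φ t)) ∧
      (∀ z ∈ A', m ≤ dist z (FC Φ (2 * Real.pi))) := by
  obtain ⟨m₁, hm1, h1⟩ := h'.cA.exists_thickening_subset_open isOpen_interior hM.1
  have hcW : IsClosed (wArc Φ) := by
    refine IsCompact.isClosed (isCompact_Icc.image ?_)
    exact (jcurve_FC Φ).cont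
  obtain ⟨m₂, hm2, h2⟩ := h.wirB.exists_thickenings h.cB hcW
  have hA'F : Disjoint A' {FC Φ (2 * Real.pi)} := by
    rw [Set.disjoint_singleton_right]
    intro hz
    refine Set.disjoint_left.1 h'.freeA hz ⟨0, ⟨le_rfl, Real.pi_pos.le⟩, ?_⟩
    have := (jcurve_FC Φ).per 0
    rw [zero_add] at this
    exact this.symm
  obtain ⟨m₃, hm3, h3⟩ := hA'F.exists_thickenings h'.cA isClosed_singleton
  refine ⟨min m₁ (min m₂ m₃), lt_min hm1 (lt_min hm2 hm3), fun z hz z' hd => ?_,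
    fun z hz t ht => ?_, fun z hz => ?_⟩
  · refine interior_subset (h1 (mem_thickening_iff.2 ⟨z, hz, ?_⟩))
    rw [dist_comm]
    exact hd.trans_le (min_le_left _ _)
  · by_contra hcon
    push Not at hcon
    refine Set.disjoint_left.1 h2 (self_subset_thickening hm2 _ hz)
      (mem_thickening_iff.2 ⟨FC Φ t, ⟨t, ht, rfl⟩, hcon.trans_le ?_⟩)
    exact (min_le_right _ _).trans (min_le_left _ _)
  · by_contra hcon
    push Not at hcon
    refine Set.disjoint_left.1 h3 (self_subset_thickening hm3 _ hz)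
      (mem_thickening_iff.2 ⟨_, mem_singleton _, hcon.trans_le ?_⟩)
    exact (min_le_right _ _).trans (min_le_right _ _)

theorem exists_margin_all {n : ℕ} {A B A' B' : Fin n → Set ℂ} (h : ∀ j, Adm Φ (A j) (B j))
    (h' : ∀ j, Adm Φ (A' j) (B' j)) (hM : ∀ j, Mar (A j) (B j) (A' j) (B' j)) :
    ∃ m > 0, ∀ j, (∀ z ∈ A' j, ∀ z', dist z z' < m → z' ∈ A j) ∧
      (∀ z ∈ B j, ∀ t ∈ Icc Real.pi (2 * Real.pi), m ≤ dist z (FC Φ t)) ∧
      (∀ z ∈ A' j, m ≤ dist z (FC Φ (2 * Real.pi))) := by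
  have h1 : ∀ j, ∀ᶠ m in 𝓝[>] (0 : ℝ), (∀ z ∈ A' j, ∀ z', dist z z' < m → z' ∈ A j) ∧
      (∀ z ∈ B j, ∀ t ∈ Icc Real.pi (2 * Real.pi), m ≤ dist z (FC Φ t)) ∧
      (∀ z ∈ A' j, m ≤ dist z (FC Φ (2 * Real.pi))) := by
    intro j
    obtain ⟨m, hm, a, b, c⟩ := exists_margin (h j) (h' j) (hM j)
    filter_upwards [Ioo_mem_nhdsGT hm] with m' hm'
    exact ⟨fun z hz z' hd => a z hz z' (hd.trans hm'.2),
      fun z hz t ht => hm'.2.le.trans (b z hz t ht), fun z hz => hm'.2.le.trans (c z hz)⟩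
  obtain ⟨m, hm, hm0⟩ := ((eventually_all.2 h1).and self_mem_nhdsWithin).exists
  exact ⟨m, hm0, hm⟩

/-- **(C2).** -/
theorem s_c2 {q : ℝ} (hq : 1 ≤ q) : S_C2 q := by
  intro Φ n A B A' B' hA hA' hM
  obtain ⟨m, hm, hmar⟩ := exists_margin_all hA hA' hM
  set G := homC Φ with hG
  have hGc : Continuous G := G.continuous
  have hgc : Continuous G.symm := G.symm.continuous
  have hK3 : IsCompact (closedBall (0 : ℂ) 3) := isCompact_closedBall _ _
  -- the constants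
  obtain ⟨b, hb, hb1⟩ := exists_uc hGc hK3 (show 0 < m / 4 by positivity)
  set a : ℝ := min (b ^ 2 / 100) (b / 10) with ha
  have ha0 : 0 < a := lt_min (by positivity) (by positivity)
  obtain ⟨ρ₂, hρ2, hU2⟩ := exists_uc hgc (hK3.image hGc) ha0
  set h : ℝ := min (ρ₂ / 6) (m / 8) with hh
  have hh0 : 0 < h := lt_min (by positivity) (by positivity)
  have hh1 : h ≤ ρ₂ / 6 := min_le_left _ _
  have hh2 : h ≤ m / 8 := min_le_right _ _
  obtain ⟨ρ₁, hρ1, hU1⟩ := exists_uc hGc (isCompact_sphere (0 : ℂ) 1)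
    (show 0 < min (m / 16) (h / 4) by positivity)
  set r₀ : ℝ := min (ρ₁ / 20) (1 / 8) with hr0
  have hr00 : 0 < r₀ := lt_min (by positivity) (by norm_num)
  have hr01 : r₀ ≤ ρ₁ / 20 := min_le_left _ _
  have hr02 : r₀ ≤ 1 / 8 := min_le_right _ _
  refine ⟨r₀, hr00, fun r₁ r₂ hr1 hr2 hr => ?_⟩
  obtain ⟨c1, c1'⟩ := abs_le.1 hr1
  obtain ⟨c2, c2'⟩ := abs_le.1 hr2
  have hD : r₂ - r₁ ≤ 1 := by linarith
  have hD0 : 0 < r₂ - r₁ := by linarith
  set κ : ℝ := min (min ((r₂ - r₁) ^ 2 / 10) ((r₂ - r₁) * r₀ / 6)) (min a r₀) with hκ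
  have hκ0 : 0 < κ := by
    refine lt_min (lt_min (by positivity) (by positivity)) (lt_min ha0 hr00)
  have hκ1 : κ ≤ (r₂ - r₁) ^ 2 / 10 := (min_le_left _ _).trans (min_le_left _ _)
  have hκ2 : κ ≤ (r₂ - r₁) * r₀ / 6 := (min_le_left _ _).trans (min_le_right _ _)
  have hκ3 : κ ≤ a := (min_le_right _ _).trans (min_le_left _ _)
  have hκ4 : κ ≤ r₀ := (min_le_right _ _).trans (min_le_right _ _)
  obtain ⟨ε₁, he1, hP1⟩ := exists_pd Φ r₁ hκ0
  obtain ⟨ε₂, he2, hP2⟩ := exists_pd Φ r₂ hκ0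
  obtain ⟨ε₃, he3, hU3⟩ := exists_uc hgc (hK3.image hGc) hκ0
  refine ⟨min (min ε₁ ε₂) (min ε₃ (h / 4)), by positivity,
    fun δ N₁ k₁ N₂ k₂ p₁ p₂ S₁ S₂ hC1 hC2 => ?_⟩
  obtain ⟨s₁, d1⟩ := hP1 δ N₁ k₁ p₁ S₁ (hC1.mono ((min_le_left _ _).trans (min_le_left _ _)))
  obtain ⟨s₂, d2⟩ := hP2 δ N₂ k₂ p₂ S₂ (hC2.mono ((min_le_left _ _).trans (min_le_right _ _)))
  have hδ0 := d1.hδ
  have hδ : δ < min (min ε₁ ε₂) (min ε₃ (h / 4)) := hC1.2.1
  have hδ3 : δ < ε₃ := hδ.trans_le ((min_le_right _ _).trans (min_le_left _ _))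
  have hδh : δ < h / 4 := hδ.trans_le ((min_le_right _ _).trans (min_le_right _ _))
  -- steps of the lattice
  have hst : ∀ z z', ‖G.symm z‖ ≤ 3 → dist z z' ≤ δ → ‖G.symm z - G.symm z'‖ < κ := by
    intro z z' hz hd
    rw [← dist_eq_norm]
    exact hU3 z ⟨G.symm z, mem_closedBall_zero_iff.2 hz, G.apply_symm_apply z⟩ z'
      (hd.trans_lt hδ3)
  -- points near the circle
  have hnear : ∀ (z : ℂ) (t : ℝ), ‖G.symm z - Complex.exp (t * Complex.I)‖ ≤ 10 * r₀ →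
      dist z (FC Φ t) < m / 16 ∧ dist z (FC Φ t) < h / 4 := by
    intro z t hz
    have h1 := hU1 (Complex.exp (t * Complex.I))
      (by rw [mem_sphere_zero_iff_norm, Complex.norm_exp_ofReal_mul_I]) (G.symm z) (by
        rw [dist_comm, dist_eq_norm]
        linarith)
    rw [G.apply_symm_apply, dist_comm] at h1
    have e : FC Φ t = G (Complex.exp (t * Complex.I)) := FC_eq Φ t
    rw [e]
    exact ⟨h1.trans_le (min_le_left _ _), h1.trans_le (min_le_right _ _)⟩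
  have hstrip : ∀ v, Sq (Cc S₁ S₂ p₁ p₂ k₁ k₂) (Dq S₁ p₁ k₁) (etaQ p₁ k₁) v →
      ∀ u : ℤ × ℤ, Even (u.1 + u.2) → Cor v u → ∃ t ∈ Icc Real.pi (2 * Real.pi),
        dist (pos δ u) (FC Φ t) < m / 16 ∧ dist (pos δ u) (FC Φ t) < h / 4 := by
    intro v hv u hu hc
    obtain ⟨t, ht, h1⟩ := strip_near d1 d2 hr00 hr02 hr1 hr2 hr hκ0 hκ2 hst hv hu hc
    exact ⟨t, ht, hnear _ t h1⟩
  have hwn : ∀ t ∈ Icc Real.pi (2 * Real.pi), ∃ i : ℕ, k₂ ≤ i ∧ i < N₂ ∧
      dist (pos δ (H192.ro (p₂ i))) (FC Φ t) < h / 4 := by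
    intro t ht
    obtain ⟨i, h1, h2, h3⟩ := d2.wired_near ht
    refine ⟨i, h1, h2, ?_⟩
    rw [pos_ro]
    exact (hnear _ t (h3.trans (by linarith))).2
  have hlast1 : dist (pos δ (H192.ro (p₁ (-1)))) (FC Φ (2 * Real.pi)) < m / 16 ∧
      dist (pos δ (H192.ro (p₁ (-1)))) (FC Φ (2 * Real.pi)) < h / 4 := by
    rw [pos_ro]
    exact hnear _ _ (d1.last_near.trans (by linarith))
  have hlast2 : dist (pos δ (H192.ro (p₂ (-1)))) (FC Φ (2 * Real.pi)) < m / 16 ∧
      dist (pos δ (H192.ro (p₂ (-1)))) (FC Φ (2 * Real.pi)) < h / 4 := by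
    rw [pos_ro]
    exact hnear _ _ (d2.last_near.trans (by linarith))
  have h2pi : (2 * Real.pi) ∈ Icc Real.pi (2 * Real.pi) := ⟨by linarith [Real.pi_pos], le_rfl⟩
  set Nb : ℤ × ℤ → Set (ℤ × ℤ) := fun u =>
    {w | w ∈ Wv p₂ k₂ ∧ dist (pos δ u) (pos δ w) ≤ h} with hNb
  have hk2 := d2.hk
  have hbank := bank_Wv d1 d2 hr hD hκ1
  refine ph_le hq d1.poly d1.enc d2.poly d2.enc (joined_Wv d2.poly) hbank Nb fun j => ?_
  obtain ⟨m1, m2, m3⟩ := hmar j
  -- segments of the wired arc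
  have hseg : ∀ i i' : ℕ, k₂ ≤ i → i < N₂ → k₂ ≤ i' → i' < N₂ →
      dist (pos δ (H192.ro (p₂ i))) (pos δ (H192.ro (p₂ i'))) ≤ 3 * h →
      ∀ l, (i ≤ l ∧ l ≤ i') ∨ (i' ≤ l ∧ l ≤ i) →
        dist (pos δ (H192.ro (p₂ i))) (pos δ (H192.ro (p₂ l))) ≤ m / 4 := by
    intro i i' hi hi' hj hj' hd l hl
    rw [pos_ro, pos_ro] at hd ⊢
    have hb3 : ∀ i : ℕ, k₂ ≤ i → i < N₂ → ‖G.symm ((δ : ℂ) * pt (p₂ i))‖ ≤ 3 := by
      intro i hi hi'
      have v1 := d2.vert hi'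
      have h4 := norm_add_le (G.symm ((δ : ℂ) * pt (p₂ i)) -
        (Complex.exp (s₂ i * Complex.I) + r₂ * Complex.I))
        (Complex.exp (s₂ i * Complex.I) + r₂ * Complex.I)
      have h5 := norm_add_le (Complex.exp (s₂ i * Complex.I)) (r₂ * Complex.I)
      have e2 : ‖(r₂ : ℂ) * Complex.I‖ = |r₂| := by simp
      rw [sub_add_cancel] at h4
      rw [e2, Complex.norm_exp_ofReal_mul_I] at h5
      linarith
    have h3 := hU2 ((δ : ℂ) * pt (p₂ i))
      ⟨_, mem_closedBall_zero_iff.2 (hb3 i hi hi'), G.apply_symm_apply _⟩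
      ((δ : ℂ) * pt (p₂ i')) (by linarith)
    rw [dist_eq_norm] at h3
    have h4 := d2.seg hκ3 hi hi' hj hj' h3.le hl
    have h5 : √(12 * a) + 2 * a < b := by
      have h6 : √(12 * a) ≤ b / 2 := by
        rw [show b / 2 = √((b / 2) ^ 2) from (Real.sqrt_sq (by positivity)).symm]
        refine Real.sqrt_le_sqrt ?_
        have : a ≤ b ^ 2 / 100 := min_le_left _ _
        nlinarith
      have : a ≤ b / 10 := min_le_right _ _
      linarith
    have h6 := hb1 (G.symm ((δ : ℂ) * pt (p₂ i))) (mem_closedBall_zero_iff.2 (hb3 i hi hi'))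
      (G.symm ((δ : ℂ) * pt (p₂ l))) (by rw [dist_eq_norm]; exact h4.trans_lt h5)
    rw [G.apply_symm_apply, G.apply_symm_apply] at h6
    exact h6.le
  refine
    { sub := fun z hz => interior_subset (s := A j) ((hM j).1 hz)
      subB := fun z hz => interior_subset (s := B' j) ((hM j).2 hz)
      even := H192.even_ro _
      s1C := start_off d1 d2 hr hD hκ1
      s1B := fun hz => ?_
      s2A := fun hz => ?_
      s2 := ⟨⟨N₂ - 1, by omega, by omega, by rw [cast_last (by omega)]⟩, ?_⟩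
      self := fun v hv u hu hc hC => ?_
      ne := fun v hv u hu hc => ?_
      jo := fun v hv u u' hu hu' hc hc' huA huA' w hw w' hw' => ?_
      tgt := fun v hv u hu hc hz => ?_ }
  · have h1 := m2 _ hz (2 * Real.pi) h2pi
    linarith [hlast1.1]
  · have h1 := m3 _ hz
    linarith [hlast2.1]
  · have h1 := dist_triangle_right (pos δ (H192.ro (p₁ (-1)))) (pos δ (H192.ro (p₂ (-1))))
      (FC Φ (2 * Real.pi))
    linarith [hlast1.2, hlast2.2]
  · obtain ⟨x, hx, hxu⟩ := hC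
    refine ⟨hbank u x v hu hx hxu hv.1 hv.2 hc, ?_⟩
    rw [dist_self]
    exact hh0.le
  · obtain ⟨t, ht, -, h1⟩ := hstrip v hv u hu hc
    obtain ⟨i, h2, h3, h4⟩ := hwn t ht
    refine ⟨_, ⟨i, h2, h3, rfl⟩, ?_⟩
    have := dist_triangle_right (pos δ u) (pos δ (H192.ro (p₂ i))) (FC Φ t)
    linarith
  · obtain ⟨⟨i, i1, i2, rfl⟩, i3⟩ := hw
    obtain ⟨⟨i', j1, j2, rfl⟩, j3⟩ := hw'
    -- the distance of the two corners
    have huu : dist (pos δ u) (pos δ u') ≤ h := by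
      obtain ⟨e, he⟩ := corner_vertex hc hu
      obtain ⟨e', he'⟩ := corner_vertex hc' hu'
      rw [he] at he'
      have hx : H192.ro' u' = H192.ro' u ∨ H192.ro' u' = H192.ro' u + dir e := by
        rcases Sym2.eq_iff.1 he' with ⟨h1, -⟩ | ⟨-, h1⟩
        · exact Or.inl h1.symm
        · exact Or.inr h1.symm
      rw [pos_even δ hu, pos_even δ hu']
      rcases hx with hx | hx
      · rw [hx, dist_self]
        exact hh0.le
      · rw [hx, dist_eq_norm, ← mul_sub, norm_mul, Complex.norm_real, Real.norm_of_nonneg hδ0.le]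
        have : ‖pt (H192.ro' u) - pt (H192.ro' u + dir e)‖ ≤ 1 := by
          have e1 : pt (H192.ro' u) - pt (H192.ro' u + dir e) = -pt (dir e) := by
            apply Complex.ext <;> simp [pt]
          rw [e1, norm_neg]
          fin_cases e
          · have : pt (dir (⟨0, by norm_num⟩ : Fin 4)) = 1 := by
              apply Complex.ext <;> simp [pt, dir]
            show ‖pt (dir (⟨0, by norm_num⟩ : Fin 4))‖ ≤ 1
            rw [this, norm_one]
          · have : pt (dir (⟨1, by norm_num⟩ : Fin 4)) = Complex.I := by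
              apply Complex.ext <;> simp [pt, dir]
            show ‖pt (dir (⟨1, by norm_num⟩ : Fin 4))‖ ≤ 1
            rw [this, Complex.norm_I]
          · have : pt (dir (⟨2, by norm_num⟩ : Fin 4)) = -1 := by
              apply Complex.ext <;> simp [pt, dir]
            show ‖pt (dir (⟨2, by norm_num⟩ : Fin 4))‖ ≤ 1
            rw [this, norm_neg, norm_one]
          · have : pt (dir (⟨3, by norm_num⟩ : Fin 4)) = -Complex.I := by
              apply Complex.ext <;> simp [pt, dir]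
            show ‖pt (dir (⟨3, by norm_num⟩ : Fin 4))‖ ≤ 1
            rw [this, norm_neg, Complex.norm_I]
        nlinarith
    have hii : dist (pos δ (H192.ro (p₂ i))) (pos δ (H192.ro (p₂ i'))) ≤ 3 * h := by
      have t1 := dist_triangle (pos δ (H192.ro (p₂ i))) (pos δ u) (pos δ (H192.ro (p₂ i')))
      have t2 := dist_triangle (pos δ u) (pos δ u') (pos δ (H192.ro (p₂ i')))
      rw [dist_comm (pos δ (H192.ro (p₂ i))) (pos δ u)] at t1
      linarith
    have hoff : ∀ l : ℕ, (i ≤ l ∧ l ≤ i') ∨ (i' ≤ l ∧ l ≤ i) →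
        H192.ro (p₂ l) ∉ pos δ ⁻¹' A' j := by
      intro l hl hz
      have h1 := hseg i i' i1 i2 j1 j2 hii l hl
      refine huA (m1 _ hz (pos δ u) ?_)
      have t1 := dist_triangle_left (pos δ (H192.ro (p₂ l))) (pos δ u) (pos δ (H192.ro (p₂ i)))
      have t2 := dist_comm (pos δ u) (pos δ (H192.ro (p₂ i)))
      linarith
    rcases le_total i i' with hle | hle
    · exact wired_seg d2.poly i1 hle j2 fun l h1 h2 => hoff l (Or.inl ⟨h1, h2⟩)
    · exact St_symm (hoff i' (Or.inr ⟨le_rfl, hle⟩))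
        (wired_seg d2.poly j1 hle i2 fun l h1 h2 => hoff l (Or.inr ⟨h1, h2⟩))
  · obtain ⟨t, ht, h1, -⟩ := hstrip v hv u hu hc
    have h2 := m2 _ hz t ht
    linarith

end Vale.Agent.P167.H199.C
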