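import Vale.Agent.P167.H199.C.TrS
import Vale.Agent.P167.H72.SD.Lat

/-!
# P167, general `q`, Stage II, route (C), (C2): the law level

`ph_le`: the comparison of the probabilities of the finite intersections of the events `Hit` in two
lattice polygons, from the bank condition and the transfer.
-/

set_option autoImplicit false

namespace Vale.Agent.P167.H199.C

open Finset Relation Vale.Agent.P167.FK
open Vale.Agent.P145.FB (PStep)
open Vale.Agent.P167.FKA (Cor)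
open Vale.Agent.P167.H718 (Dq etaQ good_etaQ mean_eq_Ex)
open Vale.Agent.P167.H72.SD (sand_bank Joined Bank)
open Vale.Agent.P167.E6 (IsPolygon Encloses edges wiredOpen dir)

variable {N₁ N₂ k₁ k₂ : ℕ} {p₁ : ZMod N₁ → ℤ × ℤ} {p₂ : ZMod N₂ → ℤ × ℤ}
  {S₁ S₂ : Finset (ℤ × ℤ)} {δ q : ℝ} {m : ℕ} {A B A' B' : Fin m → Set ℂ}

/-- The common part. -/
def Cc (S₁ S₂ : Finset (ℤ × ℤ)) (p₁ : ZMod N₁ → ℤ × ℤ) (p₂ : ZMod N₂ → ℤ × ℤ) (k₁ k₂ : ℕ) :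
    Finset (ℤ × ℤ) := Dq S₁ p₁ k₁ ∩ Dq S₂ p₂ k₂

theorem incF_ind {I : Set Cfg} (hI : ∀ ω ω' : Cfg, (∀ v, ω v = true → ω' v = true) → ω ∈ I → ω' ∈ I) :
    IncF (I.indicator (1 : Cfg → ℝ)) := by
  intro ω ω' h
  by_cases h1 : ω ∈ I
  · rw [Set.indicator_of_mem h1, Set.indicator_of_mem (hI ω ω' h h1)]
    exact le_refl (1 : ℝ)
  · rw [Set.indicator_of_notMem h1]
    exact Set.indicator_nonneg (fun _ _ => zero_le_one) _

theorem mem_iInter_hit {δ : ℝ} {A B : Fin m → Set ℂ} {s : ℤ × ℤ} {ω ω' : Cfg}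
    (h : ∀ v, ω v = true → ω' v = true) (h1 : ω ∈ ⋂ j, Hit δ (A j) (B j) s) :
    ω' ∈ ⋂ j, Hit δ (A j) (B j) s := by
  rw [Set.mem_iInter] at h1 ⊢
  intro j
  have h2 := h1 j
  rw [hit_eq] at h2 ⊢
  exact incF_hitS _ _ _ h h2

/-- **(C2), law level.** -/
theorem ph_le (hq : 1 ≤ q) (hp₁ : IsPolygon p₁) (hS₁ : Encloses p₁ S₁) (hp₂ : IsPolygon p₂)
    (hS₂ : Encloses p₂ S₂) {W : Set (ℤ × ℤ)}
    (hJ : Joined (Dq S₂ p₂ k₂) (etaQ p₂ k₂) W)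
    (hB : Bank (Cc S₁ S₂ p₁ p₂ k₁ k₂) (Dq S₁ p₁ k₁) (etaQ p₁ k₁) W)
    (Nb : ℤ × ℤ → Set (ℤ × ℤ))
    (hT : ∀ j, Tr (Cc S₁ S₂ p₁ p₂ k₁ k₂) (Dq S₂ p₂ k₂) (Dq S₁ p₁ k₁) (etaQ p₂ k₂) (etaQ p₁ k₁)
      (pos δ ⁻¹' A j) (pos δ ⁻¹' B j) (pos δ ⁻¹' A' j) (pos δ ⁻¹' B' j) Nb
      (H192.ro (p₁ (-1))) (H192.ro (p₂ (-1)))) :
    PH q δ p₁ k₁ S₁ A B ≤ PH q δ p₂ k₂ S₂ A' B' := by
  have hq0 : 0 < q := by linarith
  have hQ : 1 ≤ √q := Real.one_le_sqrt.2 hq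
  unfold PH
  rw [mean_eq_Ex hq0 hp₁ hS₁, mean_eq_Ex hq0 hp₂ hS₂]
  refine sand_bank hQ good_etaQ good_etaQ (C := Cc S₁ S₂ p₁ p₂ k₁ k₂) inter_subset_left
    inter_subset_right (incF_ind fun _ _ h h1 => mem_iInter_hit h h1)
    (incF_ind fun _ _ h h1 => mem_iInter_hit h h1) hJ hB fun T hTs S _ => ?_
  by_cases h1 : cf (Dq S₁ p₁ k₁) (etaQ p₁ k₁) (T ∪ S) ∈
      ⋂ j, Hit δ (A j) (B j) (H192.ro (p₁ (-1)))
  · have h2 : cf (Dq S₂ p₂ k₂) (etaQ p₂ k₂) S ∈ ⋂ j, Hit δ (A' j) (B' j) (H192.ro (p₂ (-1))) := by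
      rw [Set.mem_iInter] at h1 ⊢
      exact fun j => (hT j).transfer inter_subset_left inter_subset_right hTs (h1 j)
    rw [Set.indicator_of_mem h1, Set.indicator_of_mem h2]
    exact le_refl (1 : ℝ)
  · rw [Set.indicator_of_notMem h1]
    exact Set.indicator_nonneg (fun _ _ => zero_le_one) _

/-! ### The wired arc -/

/-- The squares of the wired arc are open outside of `Dq`. -/
theorem wired_open {N k : ℕ} {p : ZMod N → ℤ × ℤ} {S : Finset (ℤ × ℤ)} {i : ℕ} (hi : k ≤ i)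
    (hi' : i + 1 < N) (hp : IsPolygon p) :
    PStep (op (cf (Dq S p k) (etaQ p k) ∅)) (H192.ro (p i)) (H192.ro (p ((i + 1 : ℕ) : ZMod N))) := by
  obtain ⟨r, hr⟩ := hp.2.2 (i : ZMod N)
  have e1 : p ((i + 1 : ℕ) : ZMod N) = p i + dir r := by
    rw [← hr]
    push_cast
    rfl
  rw [e1]
  obtain ⟨h1, h2⟩ := H192.ro_dir (p i) r
  refine ⟨h1, h2, ?_⟩
  have h3 : (min (H192.ro (p i)).1 (H192.ro (p i + dir r)).1,
      min (H192.ro (p i)).2 (H192.ro (p i + dir r)).2) = H192.sq s(p i, p i + dir r) :=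
    H72.SD.ed_sqr_dir (p i) r
  rw [h3]
  have h4 : H192.ed (H192.sq s(p i, p i + dir r)) = s(p i, p (i + 1)) := by
    rw [H192.ed_sq ⟨p i, r, rfl⟩, hr]
  have h6 : H192.ed (H192.sq s(p i, p i + dir r)) ∈ H718.wE p k := by
    rw [h4]
    exact H718.mem_wE.2 ⟨i, hi, hi', rfl⟩
  have h5 : H192.sq s(p i, p i + dir r) ∉ Dq S p k := fun h => ((H718.mem_Dq').1 h).2 h6
  show cf _ _ ∅ _ = true
  simp only [cf, h5, if_false]
  unfold etaQ
  rw [H192.cfg_true]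
  exact h6

/-- A segment of the wired arc off `A`. -/
theorem wired_seg {N k : ℕ} {p : ZMod N → ℤ × ℤ} {S : Finset (ℤ × ℤ)} (hp : IsPolygon p)
    {A : Set (ℤ × ℤ)} {i j : ℕ} (hi : k ≤ i) (hij : i ≤ j) (hj : j < N)
    (hA : ∀ l, i ≤ l → l ≤ j → H192.ro (p (l : ZMod N)) ∉ A) :
    ReflTransGen (St A (cf (Dq S p k) (etaQ p k) ∅)) (H192.ro (p i)) (H192.ro (p j)) := by
  induction j, hij using Nat.le_induction with
  | base => exact ReflTransGen.refl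
  | succ j hij ih =>
    refine (ih (by omega) fun l h1 h2 => hA l h1 (by omega)).tail ⟨?_, hA _ (by omega) le_rfl⟩
    exact wired_open (by omega) hj hp

theorem St_symm {A : Set (ℤ × ℤ)} {ω : Cfg} {s t : ℤ × ℤ} (hs : s ∉ A)
    (h : ReflTransGen (St A ω) s t) : ReflTransGen (St A ω) t s := by
  have key : t ∉ A ∧ ReflTransGen (St A ω) t s := by
    induction h with
    | refl => exact ⟨hs, ReflTransGen.refl⟩
    | @tail x y _ hxy ih =>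
      refine ⟨hxy.2, ReflTransGen.head ⟨?_, ih.1⟩ ih.2⟩
      have h1 := hxy.1
      refine ⟨?_, ?_, ?_⟩
      · have := h1.1; omega
      · have := h1.2.1; omega
      · have h2 := h1.2.2
        rw [min_comm x.1, min_comm x.2] at h2
        exact h2
  exact key.2

end Vale.Agent.P167.H199.C
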