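import Vale.Agent.P167.H199.C.CDefs
import Vale.Agent.P167.H327.Near

/-!
# P167, general `q`, Stage II, route (C): **[POLY-SEQ] is a theorem** (327's `rado_near`)
-/

set_option autoImplicit false

namespace Vale.Agent.P167.H199.C

theorem s_stab : S_stab := by
  intro Φ ψ hψ Φn h
  refine H327.rado_near (fun ε hε => ?_) hψ
  filter_upwards [h ε hε] with n hn t
  exact (hn t).le

end Vale.Agent.P167.H199.C
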