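import Vale.Agent.P167.H714.C1.Hit
import Vale.Agent.P167.H72.SD.Bank

/-!
# P167, general `q`, Stage II, route (C), (C2): the transfer of the event `Hc` (combinatorics)

`C` a common part of the domains `P` (outside `ζ`) and `D` (outside `η`). The strip: even sites of
squares `v ∉ C` which are in `P` or open in `ζ`. `Nb u`: sites of the wired arc of `D` near the site
`u` of the strip. If for every strip square off `A` the sites of `Nb` of its corners are joined to each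
other in `D` off `A'`, then an open path of `P` off `A` from `s₁` to `B` gives an open path of `D` off
`A'` from `s₂` to `B'`.
-/

set_option autoImplicit false

namespace Vale.Agent.P167.H199.C2

open Finset Relation Vale.Agent.P167.FK
open Vale.Agent.P145.FB (PStep)
open Vale.Agent.P167.FKA (Cor)
open Vale.Agent.P167.H259 (cf_mono)
open Vale.Agent.P167.H72.SD (cor_sqr sqr)
open Vale.Agent.P167.H714.C1 (Hc)

variable {C D P : Finset (ℤ × ℤ)} {η ζ : Cfg} {A B A' B' : Set (ℤ × ℤ)} {Nb : ℤ × ℤ → Set (ℤ × ℤ)}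
  {s₁ s₂ : ℤ × ℤ}

/-- Connections by open squares off `A`. -/
def Cn (A : Set (ℤ × ℤ)) (ω : Cfg) (s t : ℤ × ℤ) : Prop :=
  ReflTransGen (PStep {v | ω v = true ∧ v ∉ A}) s t

/-- The squares of the strip. -/
def Sq (C P : Finset (ℤ × ℤ)) (ζ : Cfg) (v : ℤ × ℤ) : Prop := v ∉ C ∧ (v ∈ P ∨ ζ v = true)

/-- The hypotheses of the transfer. -/
structure Tr (C D P : Finset (ℤ × ℤ)) (η ζ : Cfg) (A B A' B' : Set (ℤ × ℤ))
    (Nb : ℤ × ℤ → Set (ℤ × ℤ)) (s₁ s₂ : ℤ × ℤ) : Prop where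
  sub : A' ⊆ A
  subB : B ⊆ B'
  even : Even (s₁.1 + s₁.2)
  s1C : ∀ a ∈ C, ¬ Cor a s₁
  s1B : ∀ v ∈ B, ¬ Cor v s₁
  s2 : s₂ ∈ Nb s₁
  self : ∀ v, Sq C P ζ v → ∀ u : ℤ × ℤ, Even (u.1 + u.2) → Cor v u → (∃ a ∈ C, Cor a u) → u ∈ Nb u
  ne : ∀ v, Sq C P ζ v → ∀ u : ℤ × ℤ, Even (u.1 + u.2) → Cor v u → (Nb u).Nonempty
  jo : ∀ v, Sq C P ζ v → v ∉ A → ∀ u u' : ℤ × ℤ, Even (u.1 + u.2) → Even (u'.1 + u'.2) →
    Cor v u → Cor v u' → ∀ w ∈ Nb u, ∀ w' ∈ Nb u', Cn A' (cf D η ∅) w w'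
  tgt : ∀ v, Sq C P ζ v → ∀ u : ℤ × ℤ, Even (u.1 + u.2) → Cor v u → ∀ b ∈ B, ¬ Cor b u

theorem Cn_mono {A A' : Set (ℤ × ℤ)} (hA : A' ⊆ A) {ω ω' : Cfg} (h : ∀ v, ω v = true → ω' v = true)
    {s t : ℤ × ℤ} (h1 : Cn A ω s t) : Cn A' ω' s t :=
  ReflTransGen.mono (fun _ _ hab => ⟨hab.1, hab.2.1, h _ hab.2.2.1, fun h' => hab.2.2.2 (hA h')⟩)
    _ _ h1

theorem incF_hc {A B A' B' : Set (ℤ × ℤ)} (hA : A' ⊆ A) (hB : B ⊆ B') {s₀ : ℤ × ℤ} {ω ω' : Cfg}
    (h : ∀ v, ω v = true → ω' v = true) (h1 : Hc true ω A B s₀) : Hc true ω' A' B' s₀ := by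
  obtain ⟨t, v, hv, hvt, h2⟩ := h1
  exact ⟨t, v, hB hv, hvt, Cn_mono hA h h2⟩

/-- **The transfer.** -/
theorem Tr.transfer (h : Tr C D P η ζ A B A' B' Nb s₁ s₂) (hCP : C ⊆ P) (hCD : C ⊆ D)
    {T S : Finset (ℤ × ℤ)} (hT : T ⊆ P \ C) (hH : Hc true (cf P ζ (T ∪ S)) A B s₁) :
    Hc true (cf D η S) A' B' s₂ := by
  obtain ⟨u, b, hb, hbu, hp⟩ := hH
  have h0 : ∀ v, cf D η ∅ v = true → cf D η S v = true := cf_mono (empty_subset S)
  have key : Even (u.1 + u.2) ∧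
      (((∃ a ∈ C, Cor a u) ∧ Cn A' (cf D η S) s₂ u) ∨
      (∃ v, Sq C P ζ v ∧ v ∉ A ∧ Cor v u ∧ ∃ w ∈ Nb u, Cn A' (cf D η S) s₂ w) ∨ u = s₁) := by
    clear hbu
    induction hp with
    | refl => exact ⟨h.even, Or.inr (Or.inr rfl)⟩
    | @tail x y _ hxy ih =>
      obtain ⟨hxe, ih⟩ := ih
      obtain ⟨hcx, hcy⟩ := cor_sqr hxy
      have hye := H72.SD.even_step hxy hxe
      refine ⟨hye, ?_⟩
      have hopen : cf P ζ (T ∪ S) (sqr x y) = true := hxy.2.2.1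
      have hoff : sqr x y ∉ A := hxy.2.2.2
      by_cases hsC : sqr x y ∈ C
      · -- a step inside `C`
        have hsS : sqr x y ∈ S := by
          simp only [cf, hCP hsC, if_true, decide_eq_true_eq, mem_union] at hopen
          rcases hopen with h1 | h1
          · exact absurd hsC (mem_sdiff.1 (hT h1)).2
          · exact h1
        have hst' : PStep {v | cf D η S v = true ∧ v ∉ A'} x y := by
          refine ⟨hxy.1, hxy.2.1, ?_, fun h' => hoff (h.sub h')⟩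
          show cf D η S (sqr x y) = true
          simp [cf, hCD hsC, hsS]
        have hxC : ∃ a ∈ C, Cor a x := ⟨_, hsC, hcx⟩
        refine Or.inl ⟨⟨_, hsC, hcy⟩, ReflTransGen.tail ?_ hst'⟩
        rcases ih with ⟨-, h1⟩ | ⟨v, hv, hvA, hvx, w, hw, h1⟩ | h1
        · exact h1
        · exact h1.trans (Cn_mono subset_rfl h0
            (h.jo v hv hvA x x hxe hxe hvx hvx w hw x (h.self v hv x hxe hvx hxC)))
        · exact absurd (h1 ▸ hcx) (h.s1C _ hsC)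
      · -- a step outside of `C`
        have hP : sqr x y ∈ P ∨ ζ (sqr x y) = true := by
          by_cases hp : sqr x y ∈ P
          · exact Or.inl hp
          · simp only [cf, hp, if_false] at hopen
            exact Or.inr hopen
        have hSq : Sq C P ζ (sqr x y) := ⟨hsC, hP⟩
        obtain ⟨w', hw'⟩ := h.ne _ hSq y hye hcy
        have hgo : ∀ w ∈ Nb x, Cn A' (cf D η S) s₂ w → Cn A' (cf D η S) s₂ w' := fun w hw h1 =>
          h1.trans (Cn_mono subset_rfl h0 (h.jo _ hSq hoff x y hxe hye hcx hcy w hw w' hw'))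
        refine Or.inr (Or.inl ⟨_, hSq, hoff, hcy, w', hw', ?_⟩)
        rcases ih with ⟨h1, h2⟩ | ⟨v, hv, hvA, hvx, w, hw, h1⟩ | h1
        · exact hgo x (h.self _ hSq x hxe hcx h1) h2
        · exact hgo w hw h1
        · exact hgo s₂ (h1 ▸ h.s2) ReflTransGen.refl
  obtain ⟨hue, h1 | ⟨v, hv, -, hvu, -⟩ | h1⟩ := key
  · exact ⟨u, b, h.subB hb, hbu, h1.2⟩
  · exact absurd hbu (h.tgt v hv u hue hvu b hb)
  · exact absurd (h1 ▸ hbu) (h.s1B b hb)

end Vale.Agent.P167.H199.C2
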