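import Vale.Agent.P167.H199.C.CDefs
import Vale.Agent.P167.H72.SD.Bank

/-!
# P167, general `q`, Stage II, route (C), (C2): the transfer of the event `Hit` (combinatorics)

The same as `Tr.lean` for the event `Hit` of `CDefs` (paths whose sites are off `A`).
-/

set_option autoImplicit false

namespace Vale.Agent.P167.H199.C

open Finset Relation Vale.Agent.P167.FK
open Vale.Agent.P145.FB (PStep)
open Vale.Agent.P167.FKA (Cor)
open Vale.Agent.P167.H259 (cf_mono)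
open Vale.Agent.P167.H72.SD (cor_sqr sqr)

variable {C D P : Finset (ℤ × ℤ)} {η ζ : Cfg} {A B A' B' : Set (ℤ × ℤ)} {Nb : ℤ × ℤ → Set (ℤ × ℤ)}
  {s₁ s₂ : ℤ × ℤ}

/-- A step through an open square to a site off `A`. -/
def St (A : Set (ℤ × ℤ)) (ω : Cfg) (s t : ℤ × ℤ) : Prop := PStep (op ω) s t ∧ t ∉ A

/-- The event `Hit` by sets of sites. -/
def HitS (A B : Set (ℤ × ℤ)) (s₀ : ℤ × ℤ) : Set Cfg :=
  {ω | s₀ ∉ A ∧ ∃ u, u ∈ B ∧ ReflTransGen (St A ω) s₀ u}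

theorem hit_eq (δ : ℝ) (A B : Set ℂ) (s₀ : ℤ × ℤ) :
    Hit δ A B s₀ = HitS (pos δ ⁻¹' A) (pos δ ⁻¹' B) s₀ := rfl

/-- The squares of the strip. -/
def Sq (C P : Finset (ℤ × ℤ)) (ζ : Cfg) (v : ℤ × ℤ) : Prop := v ∉ C ∧ (v ∈ P ∨ ζ v = true)

/-- The hypotheses of the transfer. -/
structure Tr (C D P : Finset (ℤ × ℤ)) (η ζ : Cfg) (A B A' B' : Set (ℤ × ℤ))
    (Nb : ℤ × ℤ → Set (ℤ × ℤ)) (s₁ s₂ : ℤ × ℤ) : Prop where
  sub : A' ⊆ A
  subB : B ⊆ B'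
  even : Even (s₁.1 + s₁.2)
  s1C : ∀ a ∈ C, ¬ Cor a s₁
  s1B : s₁ ∉ B
  s2A : s₂ ∉ A'
  s2 : s₂ ∈ Nb s₁
  self : ∀ v, Sq C P ζ v → ∀ u : ℤ × ℤ, Even (u.1 + u.2) → Cor v u → (∃ a ∈ C, Cor a u) → u ∈ Nb u
  ne : ∀ v, Sq C P ζ v → ∀ u : ℤ × ℤ, Even (u.1 + u.2) → Cor v u → (Nb u).Nonempty
  jo : ∀ v, Sq C P ζ v → ∀ u u' : ℤ × ℤ, Even (u.1 + u.2) → Even (u'.1 + u'.2) →
    Cor v u → Cor v u' → u ∉ A → u' ∉ A → ∀ w ∈ Nb u, ∀ w' ∈ Nb u',
      ReflTransGen (St A' (cf D η ∅)) w w'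
  tgt : ∀ v, Sq C P ζ v → ∀ u : ℤ × ℤ, Even (u.1 + u.2) → Cor v u → u ∉ B

theorem St_mono {A A' : Set (ℤ × ℤ)} (hA : A' ⊆ A) {ω ω' : Cfg} (h : ∀ v, ω v = true → ω' v = true)
    {s t : ℤ × ℤ} (h1 : ReflTransGen (St A ω) s t) : ReflTransGen (St A' ω') s t :=
  ReflTransGen.mono (fun _ _ hab => ⟨⟨hab.1.1, hab.1.2.1, h _ hab.1.2.2⟩, fun h' => hab.2 (hA h')⟩)
    _ _ h1

theorem incF_hitS (A B : Set (ℤ × ℤ)) (s₀ : ℤ × ℤ) {ω ω' : Cfg} (h : ∀ v, ω v = true → ω' v = true)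
    (h1 : ω ∈ HitS A B s₀) : ω' ∈ HitS A B s₀ := by
  obtain ⟨h2, u, hu, h3⟩ := h1
  exact ⟨h2, u, hu, St_mono subset_rfl h h3⟩

/-- **The transfer.** -/
theorem Tr.transfer (h : Tr C D P η ζ A B A' B' Nb s₁ s₂) (hCP : C ⊆ P) (hCD : C ⊆ D)
    {T S : Finset (ℤ × ℤ)} (hT : T ⊆ P \ C) (hH : cf P ζ (T ∪ S) ∈ HitS A B s₁) :
    cf D η S ∈ HitS A' B' s₂ := by
  obtain ⟨hs1, u, hu, hp⟩ := hH
  have h0 : ∀ v, cf D η ∅ v = true → cf D η S v = true := cf_mono (empty_subset S)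
  have key : Even (u.1 + u.2) ∧ u ∉ A ∧
      (((∃ a ∈ C, Cor a u) ∧ ReflTransGen (St A' (cf D η S)) s₂ u) ∨
      (∃ v, Sq C P ζ v ∧ Cor v u ∧ ∃ w ∈ Nb u, ReflTransGen (St A' (cf D η S)) s₂ w) ∨
        u = s₁) := by
    clear hu
    induction hp with
    | refl => exact ⟨h.even, hs1, Or.inr (Or.inr rfl)⟩
    | @tail x y _ hxy ih =>
      obtain ⟨hxe, hxA, ih⟩ := ih
      obtain ⟨hst, hyA⟩ := hxy
      obtain ⟨hcx, hcy⟩ := cor_sqr hst
      have hye := H72.SD.even_step hst hxe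
      refine ⟨hye, hyA, ?_⟩
      have hopen : cf P ζ (T ∪ S) (sqr x y) = true := hst.2.2
      by_cases hsC : sqr x y ∈ C
      · -- a step inside `C`
        have hsS : sqr x y ∈ S := by
          simp only [cf, hCP hsC, if_true, decide_eq_true_eq, mem_union] at hopen
          rcases hopen with h1 | h1
          · exact absurd hsC (mem_sdiff.1 (hT h1)).2
          · exact h1
        have hst' : St A' (cf D η S) x y := by
          refine ⟨⟨hst.1, hst.2.1, ?_⟩, fun h' => hyA (h.sub h')⟩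
          show cf D η S (sqr x y) = true
          simp [cf, hCD hsC, hsS]
        have hxC : ∃ a ∈ C, Cor a x := ⟨_, hsC, hcx⟩
        refine Or.inl ⟨⟨_, hsC, hcy⟩, ReflTransGen.tail ?_ hst'⟩
        rcases ih with ⟨-, h1⟩ | ⟨v, hv, hvx, w, hw, h1⟩ | h1
        · exact h1
        · exact h1.trans (St_mono subset_rfl h0
            (h.jo v hv x x hxe hxe hvx hvx hxA hxA w hw x (h.self v hv x hxe hvx hxC)))
        · exact absurd (h1 ▸ hcx) (h.s1C _ hsC)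
      · -- a step outside of `C`
        have hP : sqr x y ∈ P ∨ ζ (sqr x y) = true := by
          by_cases hp : sqr x y ∈ P
          · exact Or.inl hp
          · simp only [cf, hp, if_false] at hopen
            exact Or.inr hopen
        have hSq : Sq C P ζ (sqr x y) := ⟨hsC, hP⟩
        obtain ⟨w', hw'⟩ := h.ne _ hSq y hye hcy
        have hgo : ∀ w ∈ Nb x, ReflTransGen (St A' (cf D η S)) s₂ w →
            ReflTransGen (St A' (cf D η S)) s₂ w' := fun w hw h1 =>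
          h1.trans (St_mono subset_rfl h0
            (h.jo _ hSq x y hxe hye hcx hcy hxA hyA w hw w' hw'))
        refine Or.inr (Or.inl ⟨_, hSq, hcy, w', hw', ?_⟩)
        rcases ih with ⟨h1, h2⟩ | ⟨v, hv, hvx, w, hw, h1⟩ | h1
        · exact hgo x (h.self _ hSq x hxe hcx h1) h2
        · exact hgo w hw h1
        · exact hgo s₂ (h1 ▸ h.s2) ReflTransGen.refl
  obtain ⟨hue, -, h1 | ⟨v, hv, hvu, -⟩ | h1⟩ := key
  · exact ⟨h.s2A, u, h.subB hu, h1.2⟩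
  · exact absurd hu (h.tgt v hv u hue hvu)
  · exact absurd (h1 ▸ hu) h.s1B

end Vale.Agent.P167.H199.C
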